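import Mathlib

/-! Weighted automaton statistics of binary strings. -/

namespace Vale.Agent.P321

open Finset

/-- Functions computed by acyclic weighted automata of depth `k`, mass `μ`, loop weights in `S`. -/
inductive Acc (S : Set ℂ) : ℕ → ℝ → (List Bool → ℂ) → Prop
  | zero (k : ℕ) (μ : ℝ) (h : 0 ≤ μ) : Acc S k μ (fun _ => 0)
  | add (k : ℕ) (μ ν : ℝ) (f g : List Bool → ℂ) (hf : Acc S k μ f) (hg : Acc S k ν g) :
      Acc S k (μ + ν) (fun xs => f xs + g xs)
  | step (k : ℕ) (μ : ℝ) (w : ℂ) (f : List Bool → ℂ) (g : Bool → List Bool → ℂ) (hw : w ∈ S)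
      (h0 : ‖f []‖ ≤ μ) (hg : ∀ c, Acc S k μ (g c))
      (hf : ∀ c xs, f (c :: xs) = w * f xs + g c xs) : Acc S (k + 1) μ f

namespace Acc

variable {S : Set ℂ}

theorem nonneg {k μ f} (h : Acc S k μ f) : 0 ≤ μ := by
  induction h with
  | zero k μ h => exact h
  | add k μ ν f g _ _ h1 h2 => linarith
  | step k μ w f g hw h0 hg hf ih => exact le_trans (norm_nonneg _) h0

theorem of_eq {k μ f g} (h : Acc S k μ f) (e : ∀ xs, g xs = f xs) : Acc S k μ g := by
  have : g = f := funext e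
  rw [this]; exact h

theorem mono_mass {k μ f} (h : Acc S k μ f) : ∀ {ν}, μ ≤ ν → Acc S k ν f := by
  intro ν hν
  have h2 := Acc.add k μ (ν - μ) f _ h (Acc.zero k (ν - μ) (by linarith))
  have e : μ + (ν - μ) = ν := by ring
  rw [e] at h2
  exact h2.of_eq (by simp)

theorem succ {k μ f} (h : Acc S k μ f) : Acc S (k + 1) μ f := by
  induction h with
  | zero k μ h => exact Acc.zero _ _ h
  | add k μ ν f g _ _ h1 h2 => exact Acc.add _ _ _ _ _ h1 h2
  | step k μ w f g hw h0 hg hf ih => exact Acc.step _ _ w f g hw h0 ih hf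

theorem mono_depth {k μ f} (h : Acc S k μ f) {k'} (hk : k ≤ k') : Acc S k' μ f := by
  induction hk with
  | refl => exact h
  | step _ ih => exact ih.succ

theorem mono_set {T : Set ℂ} (hST : S ⊆ T) {k μ f} (h : Acc S k μ f) : Acc T k μ f := by
  induction h with
  | zero k μ h => exact Acc.zero _ _ h
  | add k μ ν f g _ _ h1 h2 => exact Acc.add _ _ _ _ _ h1 h2
  | step k μ w f g hw h0 hg hf ih => exact Acc.step _ _ w f g (hST hw) h0 ih hf

theorem smul {k μ f} (h : Acc S k μ f) (a : ℂ) (ha : ‖a‖ ≤ 1) :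
    Acc S k μ (fun xs => a * f xs) := by
  induction h with
  | zero k μ h => exact (Acc.zero k μ h).of_eq (by simp)
  | add k μ ν f g _ _ h1 h2 => exact (Acc.add _ _ _ _ _ h1 h2).of_eq (by intro xs; ring)
  | step k μ w f g hw h0 hg hf ih =>
    refine Acc.step _ _ w _ (fun c xs => a * g c xs) hw ?_ ih ?_
    · rw [norm_mul]
      calc ‖a‖ * ‖f []‖ ≤ 1 * ‖f []‖ := by gcongr
        _ ≤ μ := by simpa using h0
    · intro c xs; rw [hf]; ring

theorem conj (hS : ∀ w ∈ S, (starRingEnd ℂ) w ∈ S) {k μ f} (h : Acc S k μ f) :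
    Acc S k μ (fun xs => (starRingEnd ℂ) (f xs)) := by
  induction h with
  | zero k μ h => exact (Acc.zero k μ h).of_eq (by simp)
  | add k μ ν f g _ _ h1 h2 => exact (Acc.add _ _ _ _ _ h1 h2).of_eq (by intro xs; simp)
  | step k μ w f g hw h0 hg hf ih =>
    refine Acc.step _ _ ((starRingEnd ℂ) w) _ (fun c xs => (starRingEnd ℂ) (g c xs)) (hS w hw)
      ?_ ih ?_
    · simpa using h0
    · intro c xs; rw [hf]; simp

theorem const (h1 : (1 : ℂ) ∈ S) (a : ℂ) (ha : ‖a‖ ≤ 1) : Acc S 1 1 (fun _ => a) :=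
  Acc.step 0 1 1 _ (fun _ _ => 0) h1 ha (fun _ => Acc.zero 0 1 zero_le_one) (by simp)

theorem mul {S' T : Set ℂ} (hS : ∀ w ∈ S, ‖w‖ ≤ 1) (hS' : ∀ w ∈ S', ‖w‖ ≤ 1)
    (hT : ∀ w ∈ S, ∀ w' ∈ S', w * w' ∈ T) {k μ f} (h : Acc S k μ f) :
    ∀ {k' μ' f'}, Acc S' k' μ' f' →
      Acc T (k + k') (3 ^ (k + k') * μ * μ') (fun xs => f xs * f' xs) := by
  induction h with
  | zero k μ h =>
    intro k' μ' f' h'
    have := h'.nonneg
    exact (Acc.zero _ _ (by positivity)).of_eq (by simp)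
  | add k μ ν f g _ _ h1 h2 =>
    intro k' μ' f' h'
    have h3 := Acc.add _ _ _ _ _ (h1 h') (h2 h')
    exact (h3.mono_mass (le_of_eq (by ring))).of_eq (by intro xs; ring)
  | step k μ w f g hw h0 hg hf ih =>
    intro k' μ' f' h'
    have hμ : 0 ≤ μ := le_trans (norm_nonneg _) h0
    induction h' with
    | zero k' μ' h' => exact (Acc.zero _ _ (by positivity)).of_eq (by simp)
    | add k' μ' ν' f' g' _ _ h1 h2 =>
      have h3 := Acc.add _ _ _ _ _ h1 h2
      exact (h3.mono_mass (le_of_eq (by ring))).of_eq (by intro xs; ring)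
    | step k' μ' w' f' g' hw' h0' hg' hf' ih' =>
      have hμ' : 0 ≤ μ' := le_trans (norm_nonneg _) h0'
      have hF' : Acc S' (k' + 1) μ' f' := Acc.step _ _ w' f' g' hw' h0' hg' hf'
      have e : k + 1 + (k' + 1) = (k + 1 + k') + 1 := by ring
      rw [e]
      refine Acc.step _ _ (w * w') _
        (fun c xs => w * (f xs * g' c xs) + w' * (g c xs * f' xs) + g c xs * g' c xs)
        (hT w hw w' hw') ?_ ?_ ?_
      · rw [norm_mul]
        have h3 : (1 : ℝ) ≤ 3 ^ (k + 1 + k' + 1) := one_le_pow₀ (by norm_num)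
        calc ‖f []‖ * ‖f' []‖ ≤ μ * μ' := by gcongr
          _ = 1 * μ * μ' := by ring
          _ ≤ _ := by gcongr
      · intro c
        have a1 := (ih' c).smul w (hS w hw)
        have a2 := (ih c hF').smul w' (hS' w' hw')
        have e2 : k + (k' + 1) = k + 1 + k' := by ring
        rw [e2] at a2
        have a3 := (ih c (hg' c)).mono_depth (show k + k' ≤ k + 1 + k' by omega)
        have a4 := Acc.add _ _ _ _ _ (Acc.add _ _ _ _ _ a1 a2) a3
        refine a4.mono_mass ?_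
        have h3 : (3 : ℝ) ^ (k + k') ≤ 3 ^ (k + 1 + k') :=
          pow_le_pow_right₀ (by norm_num) (by omega)
        have h4 : (3 : ℝ) ^ (k + k') * μ * μ' ≤ 3 ^ (k + 1 + k') * μ * μ' := by gcongr
        rw [pow_succ]; linarith
      · intro c xs; rw [hf, hf']; ring

end Acc

/-- Expectation of a statistic of a trace, by recursion on the source string. -/
noncomputable def Ex (p : ℝ) : List Bool → (List Bool → ℂ) → ℂ
  | [], f => f []
  | c :: xs, f => p * Ex p xs (fun ys => f (c :: ys)) + (1 - p) * Ex p xs f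

theorem Ex_add (p : ℝ) (xs : List Bool) : ∀ f g : List Bool → ℂ,
    Ex p xs (fun ys => f ys + g ys) = Ex p xs f + Ex p xs g := by
  induction xs with
  | nil => intro f g; rfl
  | cons c xs ih => intro f g; simp only [Ex, ih]; ring

theorem Ex_smul (p : ℝ) (xs : List Bool) (a : ℂ) : ∀ f : List Bool → ℂ,
    Ex p xs (fun ys => a * f ys) = a * Ex p xs f := by
  induction xs with
  | nil => intro f; rfl
  | cons c xs ih => intro f; simp only [Ex, ih]; ring

theorem Ex_one (xs : List Bool) : ∀ f : List Bool → ℂ, Ex 1 xs f = f xs := by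
  induction xs with
  | nil => intro f; rfl
  | cons c xs ih => intro f; simp [Ex, ih]

/-- Solution of a linear recursion along a list. -/
noncomputable def recL (a w : ℂ) (g : Bool → List Bool → ℂ) : List Bool → ℂ
  | [] => a
  | c :: xs => w * recL a w g xs + g c xs

theorem Acc.estimator {S : Set ℂ} {p κ : ℝ} (hp : 0 < p) (hp1 : p ≤ 1) (hκ : 1 ≤ κ)
    (hS : ∀ w ∈ S, ‖w - (1 - p)‖ ≤ p * κ) {k μ f} (h : Acc S k μ f) :
    ∃ g : List Bool → ℂ, (∀ xs, Ex p xs g = f xs) ∧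
      ∀ ys, ‖g ys‖ ≤ μ / p ^ k * ((ys.length : ℝ) + 1) ^ k * κ ^ ys.length := by
  induction h with
  | zero k μ h =>
    refine ⟨fun _ => 0, fun xs => ?_, fun ys => ?_⟩
    · have := Ex_smul p xs 0 (fun _ => 0); simpa using this
    · simp only [norm_zero]; positivity
  | add k μ ν f g _ _ h1 h2 =>
    obtain ⟨f1, a1, b1⟩ := h1
    obtain ⟨f2, a2, b2⟩ := h2
    refine ⟨fun ys => f1 ys + f2 ys, fun xs => by rw [Ex_add, a1, a2], fun ys => ?_⟩
    calc _ ≤ ‖f1 ys‖ + ‖f2 ys‖ := norm_add_le _ _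
      _ ≤ _ := add_le_add (b1 ys) (b2 ys)
      _ = _ := by ring
  | step k μ w f g hw h0 hg hf ih =>
    choose g' a1 b1 using ih
    have hμ : 0 ≤ μ := le_trans (norm_nonneg _) h0
    have hpc : (p : ℂ) ≠ 0 := by exact_mod_cast hp.ne'
    refine ⟨recL (f []) ((w - (1 - p)) / p) (fun c ys => (p : ℂ)⁻¹ * g' c ys), fun xs => ?_,
      fun ys => ?_⟩
    · induction xs with
      | nil => rfl
      | cons c xs ih =>
        simp only [Ex, recL]
        rw [Ex_add, Ex_smul, Ex_smul, ih, a1, hf]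
        field_simp
        ring
    · have hw' : ‖(w - (1 - p)) / p‖ ≤ κ := by
        rw [norm_div, Complex.norm_real, Real.norm_eq_abs, abs_of_pos hp, div_le_iff₀ hp]
        have := hS w hw
        linarith
      induction ys with
      | nil =>
        simp only [recL, List.length_nil, Nat.cast_zero, zero_add, one_pow, pow_zero, mul_one]
        refine h0.trans ?_
        rw [le_div_iff₀ (by positivity)]
        have : p ^ (k + 1) ≤ 1 := pow_le_one₀ hp.le hp1
        nlinarith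
      | cons c ys ih =>
        simp only [recL, List.length_cons, Nat.cast_add, Nat.cast_one]
        set L : ℝ := (ys.length : ℝ) with hL
        have hL0 : 0 ≤ L := by positivity
        have e1 : ‖(p : ℂ)⁻¹ * g' c ys‖ ≤ μ / p ^ (k + 1) * (L + 1) ^ k * κ ^ ys.length := by
          rw [norm_mul, norm_inv, Complex.norm_real, Real.norm_eq_abs, abs_of_pos hp]
          calc p⁻¹ * ‖g' c ys‖ ≤ p⁻¹ * (μ / p ^ k * (L + 1) ^ k * κ ^ ys.length) := by
                gcongr; exact b1 c ys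
            _ = _ := by field_simp; ring
        have e2 : (L + 1) ^ (k + 1) + (L + 1) ^ k ≤ (L + 1 + 1) ^ (k + 1) := by
          have : (L + 1) ^ k ≤ (L + 1 + 1) ^ k := by gcongr; linarith
          rw [pow_succ, pow_succ]
          nlinarith [pow_nonneg (show 0 ≤ L + 1 by linarith) k]
        have e3 : κ ^ ys.length ≤ κ ^ (ys.length + 1) := pow_le_pow_right₀ hκ (by omega)
        have hc : 0 ≤ μ / p ^ (k + 1) := by positivity
        calc _ ≤ ‖(w - (1 - p)) / p * recL (f []) ((w - (1 - p)) / p)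
                  (fun c ys => (p : ℂ)⁻¹ * g' c ys) ys‖ + ‖(p : ℂ)⁻¹ * g' c ys‖ :=
              norm_add_le _ _
          _ ≤ κ * (μ / p ^ (k + 1) * (L + 1) ^ (k + 1) * κ ^ ys.length) +
                μ / p ^ (k + 1) * (L + 1) ^ k * κ ^ (ys.length + 1) := by
              refine add_le_add ?_ (e1.trans (by gcongr))
              rw [norm_mul]
              gcongr
          _ = μ / p ^ (k + 1) * ((L + 1) ^ (k + 1) + (L + 1) ^ k) * κ ^ (ys.length + 1) := by
              ring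
          _ ≤ _ := by gcongr

theorem Acc.bound {S : Set ℂ} (hS : ∀ w ∈ S, ‖w‖ ≤ 1) {k μ f} (h : Acc S k μ f) (ys : List Bool) :
    ‖f ys‖ ≤ μ * ((ys.length : ℝ) + 1) ^ k := by
  obtain ⟨g, a, b⟩ := h.estimator (p := 1) (κ := 1) one_pos le_rfl le_rfl
    (by intro w hw; simpa using hS w hw)
  have := b ys
  rw [← a ys, Ex_one]
  simpa using this

/-- Statistics all of whose one-letter derivatives are automaton statistics. -/
def Cl (S : Set ℂ) (k : ℕ) (μ : ℝ) (F : List Bool → ℂ) : Prop :=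
  ∀ c, Acc S k μ (fun xs => F (c :: xs))

/-- Geometric suffix sum, starting at offset `e`. -/
noncomputable def R (e : ℕ) (w : ℂ) (F : List Bool → ℂ) (xs : List Bool) : ℂ :=
  ∑ u ∈ range xs.length, if e ≤ u then w ^ u * F (xs.drop u) else 0

theorem R0_cons (w F c xs) : R 0 w F (c :: xs) = w * R 0 w F xs + F (c :: xs) := by
  simp only [R, List.length_cons, zero_le, if_true]
  rw [sum_range_succ', mul_sum]
  simp only [List.drop_succ_cons, pow_zero, one_mul, List.drop_zero]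
  congr 1
  refine sum_congr rfl fun u _ => by ring

theorem R1_cons (w F c xs) : R 1 w F (c :: xs) = w * R 0 w F xs := by
  simp only [R, List.length_cons, zero_le, if_true]
  rw [sum_range_succ', mul_sum]
  simp only [List.drop_succ_cons, le_add_iff_nonneg_left, zero_le, if_true, nonpos_iff_eq_zero,
    one_ne_zero, if_false, add_zero]
  refine sum_congr rfl fun u _ => by ring

theorem Cl.accR {S k μ F} (h : Cl S k μ F) {w} (hw : w ∈ S) : Acc S (k + 1) μ (R 0 w F) :=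
  Acc.step k μ w _ (fun c xs => F (c :: xs)) hw (by simpa [R] using (h true).nonneg) h
    (fun c xs => R0_cons w F c xs)

theorem Cl.clR {S k μ F} (hS : ∀ w ∈ S, ‖w‖ ≤ 1) (h : Cl S k μ F) {w} (hw : w ∈ S) {e}
    (he : e ≤ 1) : Cl S (k + 1) (2 * μ) (R e w F) := by
  intro c
  have hμ := (h c).nonneg
  have a1 := (h.accR hw).smul w (hS w hw)
  obtain rfl | rfl : e = 0 ∨ e = 1 := by omega
  · have a2 := Acc.add _ _ _ _ _ a1 (h c).succ
    exact (a2.mono_mass (by linarith)).of_eq (fun xs => R0_cons w F c xs)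
  · exact (a1.mono_mass (by linarith)).of_eq (fun xs => R1_cons w F c xs)

theorem Cl.bound {S k μ F} (hS : ∀ w ∈ S, ‖w‖ ≤ 1) (h : Cl S k μ F) (x : List Bool) {t : ℕ}
    (ht : t < x.length) : ‖F (x.drop t)‖ ≤ μ * (x.length : ℝ) ^ k := by
  have hμ := (h true).nonneg
  rw [List.drop_eq_getElem_cons ht]
  refine ((h _).bound hS _).trans ?_
  gcongr
  rw [List.length_drop]
  have : x.length - (t + 1) + 1 ≤ x.length := by omega
  exact_mod_cast this

/-- The region of admissible loop weights. -/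
def Reg (C α : ℝ) : Set ℂ :=
  {w | ∃ a θ : ℝ, 0 ≤ a ∧ C * θ ^ 2 ≤ a ∧ a ≤ α ∧ w = Complex.exp (-a + θ * Complex.I)}

theorem Reg.norm_le {C α} : ∀ w ∈ Reg C α, ‖w‖ ≤ 1 := by
  rintro w ⟨a, θ, h0, -, -, rfl⟩
  rw [Complex.norm_exp]
  simp [h0]

theorem Reg.one {C α} (h : 0 ≤ α) : (1 : ℂ) ∈ Reg C α :=
  ⟨0, 0, le_rfl, by simp, h, by simp⟩

theorem Reg.conj {C α} : ∀ w ∈ Reg C α, (starRingEnd ℂ) w ∈ Reg C α := by
  rintro w ⟨a, θ, h0, h1, h2, rfl⟩
  refine ⟨a, -θ, h0, by simpa using h1, h2, ?_⟩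
  rw [← Complex.exp_conj]
  simp

theorem Reg.mul2 {C α} (hC : 0 ≤ C) :
    ∀ w ∈ Reg C α, ∀ w' ∈ Reg C α, w * w' ∈ Reg (C / 2) (2 * α) := by
  rintro w ⟨a, θ, h0, h1, h2, rfl⟩ w' ⟨a', θ', h0', h1', h2', rfl⟩
  refine ⟨a + a', θ + θ', by linarith, ?_, by linarith, ?_⟩
  · nlinarith [mul_nonneg hC (sq_nonneg (θ - θ'))]
  · rw [← Complex.exp_add]; congr 1; push_cast; ring

theorem Reg.mono {C α C' α'} (hC : C' ≤ C) (hα : α ≤ α') : Reg C α ⊆ Reg C' α' := by
  rintro w ⟨a, θ, h0, h1, h2, rfl⟩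
  exact ⟨a, θ, h0, le_trans (by nlinarith [sq_nonneg θ]) h1, h2.trans hα, rfl⟩

theorem Reg.disc {p : ℝ} (hp : 0 < p) (hp1 : p ≤ 1) :
    ∀ w ∈ Reg (2 / p) p, ‖w - (1 - p)‖ ≤ p := by
  rintro w ⟨a, θ, h0, h1, h2, rfl⟩
  have hθ : θ ^ 2 ≤ p * a / 2 := by
    rw [div_mul_eq_mul_div, div_le_iff₀ hp] at h1; linarith
  refine abs_le_of_sq_le_sq' ?_ hp.le |>.2
  rw [Complex.sq_norm, Complex.normSq_apply]
  have hre : (Complex.exp (-a + θ * Complex.I) - (1 - p)).re =
      Real.exp (-a) * Real.cos θ - (1 - p) := by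
    simp [Complex.exp_re]
  have him : (Complex.exp (-a + θ * Complex.I) - (1 - p)).im = Real.exp (-a) * Real.sin θ := by
    simp [Complex.exp_im]
  rw [hre, him]
  set E := Real.exp (-a) with hE
  have hE0 : 0 < E := Real.exp_pos _
  have hE1 : 1 - a ≤ E := by have := Real.add_one_le_exp (-a); linarith
  have hE2 : E * (1 + a) ≤ 1 := by
    have h3 := Real.add_one_le_exp a
    have h4 : E * Real.exp a = 1 := by rw [hE, ← Real.exp_add]; simp
    nlinarith
  have hc := Real.one_sub_sq_div_two_le_cos (x := θ)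
  have hsc := Real.sin_sq_add_cos_sq θ
  have hu : 0 ≤ 1 - E := by nlinarith
  have h5 : 1 - E * Real.cos θ ≤ (1 - E) * (1 + p / 4) := by
    have : E * (1 - Real.cos θ) ≤ E * (p * a / 4) := by gcongr; linarith
    nlinarith
  have h6 : 2 * (1 - p) * (1 - E * Real.cos θ) ≤ 1 - E ^ 2 := by
    have h7 : 2 * (1 - p) * (1 + p / 4) ≤ 1 + E := by nlinarith
    calc 2 * (1 - p) * (1 - E * Real.cos θ) ≤ 2 * (1 - p) * ((1 - E) * (1 + p / 4)) := by
          gcongr
      _ = (1 - E) * (2 * (1 - p) * (1 + p / 4)) := by ring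
      _ ≤ (1 - E) * (1 + E) := by gcongr
      _ = _ := by ring
  nlinarith

theorem Cl.triple {C α : ℝ} (hC : 0 ≤ C) (hα : 0 ≤ α) {k : ℕ} (hk : 2 ≤ k) {F1 F2 F3}
    (h1 : Cl (Reg C α) k (3 ^ (8 * k)) F1) (h2 : Cl (Reg C α) k (3 ^ (8 * k)) F2)
    (h3 : Cl (Reg C α) k (3 ^ (8 * k)) F3) {w2 w3} (hw2 : w2 ∈ Reg C α) (hw3 : w3 ∈ Reg C α)
    {e2 e3} (he2 : e2 ≤ 1) (he3 : e3 ≤ 1) :
    Cl (Reg (C / 4) (4 * α)) (4 * k) (3 ^ (8 * (4 * k)))
      (fun xs => F1 xs * R e2 w2 F2 xs * R e3 w3 F3 xs) := by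
  intro c
  have a2 := h2.clR Reg.norm_le hw2 he2 c
  have a3 := (h3.clR Reg.norm_le hw3 he3 c).mono_set
    (Reg.mono (C' := C / 2) (α' := 2 * α) (by linarith) (by linarith))
  have b1 := Acc.mul Reg.norm_le Reg.norm_le (Reg.mul2 hC) (h1 c) a2
  have b2 := Acc.mul Reg.norm_le Reg.norm_le (Reg.mul2 (by linarith)) b1 a3
  have e1 : C / 2 / 2 = C / 4 := by ring
  have e2 : 2 * (2 * α) = 4 * α := by ring
  rw [e1, e2] at b2
  refine (b2.mono_depth (by omega)).mono_mass ?_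
  have e3 : (3 : ℝ) ^ (k + (k + 1) + (k + 1)) * (3 ^ (k + (k + 1)) * 3 ^ (8 * k) *
      (2 * 3 ^ (8 * k))) * (2 * 3 ^ (8 * k)) = 4 * 3 ^ (29 * k + 3) := by ring
  rw [e3]
  calc (4 : ℝ) * 3 ^ (29 * k + 3) ≤ 3 ^ 2 * 3 ^ (29 * k + 3) := by gcongr; norm_num
    _ = 3 ^ (29 * k + 5) := by ring
    _ ≤ _ := pow_le_pow_right₀ (by norm_num) (by omega)

end Vale.Agent.P321
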