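import Mathlib

/-! Approximate characters on a dense set of integers. -/

namespace Vale.Agent.P321

open Finset Complex

theorem avoid3 (Bad : Finset ℕ) (K a b c : ℕ) (h : 3 * Bad.card < K) :
    ∃ u < K, u + a ∉ Bad ∧ u + b ∉ Bad ∧ u + c ∉ Bad := by
  by_contra hc
  push Not at hc
  have card : ∀ d : ℕ, ((range K).filter fun u => u + d ∈ Bad).card ≤ Bad.card := by
    intro d
    refine card_le_card_of_injOn (fun u => u + d) (fun u hu => by simpa using (mem_filter.mp hu).2)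
      (fun u _ v _ e => by simpa using e)
  have sub : range K ⊆ ((range K).filter fun u => u + a ∈ Bad) ∪
      ((range K).filter fun u => u + b ∈ Bad) ∪ ((range K).filter fun u => u + c ∈ Bad) := by
    intro u hu
    have := hc u (mem_range.mp hu)
    simp only [mem_union, mem_filter, hu, true_and]
    tauto
  have h1 := card_le_card sub
  have h2 := card_union_le (((range K).filter fun u => u + a ∈ Bad) ∪
      ((range K).filter fun u => u + b ∈ Bad)) ((range K).filter fun u => u + c ∈ Bad)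
  have h3 := card_union_le ((range K).filter fun u => u + a ∈ Bad)
      ((range K).filter fun u => u + b ∈ Bad)
  have := card a
  have := card b
  have := card c
  rw [card_range] at h1
  omega

theorem unit_close {u v : ℂ} (hu : ‖u‖ = 1) (hv : ‖v‖ = 1) {r s ε : ℝ} (hr : 0 ≤ r) (hs : 0 ≤ s)
    (h : ‖r * u - s * v‖ ≤ ε) : r * ‖u - v‖ ≤ 2 * ε := by
  have a1 : ‖(r : ℂ) * u‖ = r := by rw [norm_mul, hu, Complex.norm_real]; simp [abs_of_nonneg hr]
  have a2 : ‖(s : ℂ) * v‖ = s := by rw [norm_mul, hv, Complex.norm_real]; simp [abs_of_nonneg hs]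
  have a3 := abs_norm_sub_norm_le ((r : ℂ) * u) (s * v)
  rw [a1, a2] at a3
  have a4 : ‖((s - r : ℝ) : ℂ) * v‖ ≤ ε := by
    rw [norm_mul, hv, Complex.norm_real, Real.norm_eq_abs, abs_sub_comm]; linarith
  have a5 : ‖(r : ℂ) * (u - v)‖ = r * ‖u - v‖ := by
    rw [norm_mul, Complex.norm_real]; simp [abs_of_nonneg hr]
  have e : (r : ℂ) * (u - v) = (r * u - s * v) + ((s - r : ℝ) : ℂ) * v := by push_cast; ring
  rw [← a5, e]
  exact (norm_add_le _ _).trans (by linarith)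

theorem chain (ω : ℕ → ℂ) (hω : ∀ k, ‖ω k‖ = 1) (Bad : Finset ℕ) (K : ℕ) (h : 3 * Bad.card < K)
    {ε : ℝ} (hε : 0 ≤ ε)
    (h3 : ∀ k l e, e ≤ 1 → k + l + e < 3 * K → k ∉ Bad → l ∉ Bad → k + l + e ∉ Bad →
      ‖ω k * ω l - ω (k + l + e)‖ ≤ ε) :
    ∃ k < K, k ∉ Bad ∧ ‖ω k - 1‖ ≤ (2 * K + 1) * ε := by
  have claim : ∀ s < K, ∀ l < K, l ∉ Bad → l + s ∉ Bad → ‖ω (l + s) - ω l‖ ≤ 2 * s * ε := by
    intro s
    induction s with
    | zero => intro _ l _ _ _; simp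
    | succ s ih =>
      intro hs l hl b1 b2
      obtain ⟨u, hu, c1, c2, c3⟩ := avoid3 Bad K 0 s (l + s + 1) h
      rw [add_zero] at c1
      have d1 := ih (by omega) u hu c1 c2
      have d2 := h3 (l + (s + 1)) u 0 (by omega) (by omega) b2 c1
        (by rw [show l + (s + 1) + u + 0 = u + (l + s + 1) by ring]; exact c3)
      have d3 := h3 l (u + s) 1 (by omega) (by omega) b1 c2
        (by rw [show l + (u + s) + 1 = u + (l + s + 1) by ring]; exact c3)
      rw [show l + (u + s) + 1 = l + (s + 1) + u + 0 by ring] at d3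
      have e : (ω (l + (s + 1)) - ω l) * ω u = (ω (l + (s + 1)) * ω u - ω (l + (s + 1) + u + 0)) -
          (ω l * ω (u + s) - ω (l + (s + 1) + u + 0)) + ω l * (ω (u + s) - ω u) := by ring
      have f1 : ‖ω (l + (s + 1)) - ω l‖ = ‖(ω (l + (s + 1)) - ω l) * ω u‖ := by
        rw [norm_mul, hω, mul_one]
      have f2 : ‖ω l * (ω (u + s) - ω u)‖ = ‖ω (u + s) - ω u‖ := by
        rw [norm_mul, hω, one_mul]
      rw [f1, e]
      refine (norm_add_le _ _).trans ?_
      have := norm_sub_le (ω (l + (s + 1)) * ω u - ω (l + (s + 1) + u + 0))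
        (ω l * ω (u + s) - ω (l + (s + 1) + u + 0))
      push_cast
      linarith
  obtain ⟨k, hk, c1, -, -⟩ := avoid3 Bad K 0 0 0 h
  rw [add_zero] at c1
  obtain ⟨l, hl, c2, c3, -⟩ := avoid3 Bad K 0 k 0 h
  rw [add_zero] at c2
  refine ⟨k, hk, c1, ?_⟩
  have d1 := claim k hk l hl c2 c3
  have d2 := h3 l k 0 (by omega) (by omega) c2 c1 c3
  rw [add_zero] at d2
  have f1 : ‖ω k - 1‖ = ‖ω l * (ω k - 1)‖ := by rw [norm_mul, hω, one_mul]
  have e : ω l * (ω k - 1) = (ω l * ω k - ω (l + k)) + (ω (l + k) - ω l) := by ring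
  rw [f1, e]
  refine (norm_add_le _ _).trans ?_
  have : (k : ℝ) ≤ K := by exact_mod_cast hk.le
  have : 2 * (k : ℝ) * ε ≤ 2 * K * ε := by gcongr
  linarith

theorem add_contra (P Q : ℕ → ℂ) (Bad : Finset ℕ) (K : ℕ) (h : 3 * Bad.card < K) {ε τ E : ℝ}
    (hε : 0 ≤ ε) (hτ : 0 < τ) (hτ1 : τ ≤ 1) (hE : 1 ≤ E) (hP : ∀ k, ‖P k‖ ≤ E)
    (hg : ∀ k < 3 * K, k ∉ Bad → τ ≤ ‖P k - Q k‖)
    (h2 : ∀ k < 3 * K, |‖P k‖ ^ 2 - ‖Q k‖ ^ 2| ≤ ε)
    (h3 : ∀ k l e, e ≤ 1 → k + l + e < 3 * K →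
      ‖P k * P l * (starRingEnd ℂ) (P (k + l + e)) -
        Q k * Q l * (starRingEnd ℂ) (Q (k + l + e))‖ ≤ ε)
    (hnum : 108 * E * (2 * K + 1) * ε < τ ^ 4) : False := by
  have pol : ∀ z : ℂ, ∃ u : ℂ, ‖u‖ = 1 ∧ z = (‖z‖ : ℝ) * u := fun z =>
    ⟨cexp (arg z * I), norm_exp_ofReal_mul_I _, (norm_mul_exp_arg_mul_I z).symm⟩
  choose p hp1 hp2 using fun k => pol (P k)
  choose q hq1 hq2 using fun k => pol (Q k)
  have hK0 : (0 : ℝ) ≤ K := by positivity
  have hετ : 8 * ε ≤ τ ^ 2 := by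
    have a1 : 1 * 1 ≤ E * (2 * K + 1) := by gcongr; linarith
    have a2 : τ ^ 4 ≤ τ ^ 2 := pow_le_pow_of_le_one hτ.le hτ1 (by norm_num)
    nlinarith
  have low : ∀ k < 3 * K, k ∉ Bad → τ / 3 ≤ ‖P k‖ := by
    intro k hk hb
    by_contra hc
    push Not at hc
    have a1 := (hg k hk hb).trans (norm_sub_le _ _)
    have a2 := (abs_le.mp (h2 k hk)).1
    have a3 := norm_nonneg (P k)
    nlinarith
  have cj : ∀ u : ℂ, ‖u‖ = 1 → u * (starRingEnd ℂ) u = 1 := by
    intro u hu; rw [Complex.mul_conj, Complex.normSq_eq_norm_sq, hu]; simp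
  obtain ⟨k, hk, hb, hk1⟩ := chain (fun k => p k * (starRingEnd ℂ) (q k))
    (fun k => by simp [hp1, hq1]) Bad K h (ε := 54 * ε / τ ^ 3) (by positivity) (by
      intro k l e he hj b1 b2 b3
      set j := k + l + e with hj'
      have a1 := h3 k l e he hj
      rw [← hj'] at a1
      have e1 : P k * P l * (starRingEnd ℂ) (P j) =
          ((‖P k‖ * ‖P l‖ * ‖P j‖ : ℝ) : ℂ) * (p k * p l * (starRingEnd ℂ) (p j)) := by
        conv_lhs => rw [hp2 k, hp2 l, hp2 j]
        simp only [map_mul, Complex.conj_ofReal]; push_cast; ring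
      have e2 : Q k * Q l * (starRingEnd ℂ) (Q j) =
          ((‖Q k‖ * ‖Q l‖ * ‖Q j‖ : ℝ) : ℂ) * (q k * q l * (starRingEnd ℂ) (q j)) := by
        conv_lhs => rw [hq2 k, hq2 l, hq2 j]
        simp only [map_mul, Complex.conj_ofReal]; push_cast; ring
      rw [e1, e2] at a1
      have a2 := unit_close (by simp [hp1]) (by simp [hq1]) (by positivity) (by positivity) a1
      have l1 := low k (by omega) b1
      have l2 := low l (by omega) b2
      have l3 := low j hj b3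
      have a3 : τ / 3 * (τ / 3) * (τ / 3) ≤ ‖P k‖ * ‖P l‖ * ‖P j‖ := by gcongr
      have e3 : (p k * (starRingEnd ℂ) (q k) * (p l * (starRingEnd ℂ) (q l)) -
          p j * (starRingEnd ℂ) (q j)) * (q k * q l * (starRingEnd ℂ) (p j)) =
          p k * p l * (starRingEnd ℂ) (p j) - q k * q l * (starRingEnd ℂ) (q j) := by
        have c1 := cj _ (hq1 k)
        have c2 := cj _ (hq1 l)
        have c3 := cj _ (hp1 j)
        linear_combination (p k * p l * (starRingEnd ℂ) (p j) * (q l * (starRingEnd ℂ) (q l))) * c1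
          + (p k * p l * (starRingEnd ℂ) (p j)) * c2 - (q k * q l * (starRingEnd ℂ) (q j)) * c3
      have e4 := congrArg norm e3
      rw [norm_mul] at e4
      simp only [norm_mul, hq1, hp1, Complex.norm_conj, mul_one] at e4
      rw [e4, le_div_iff₀ (by positivity)]
      have a4 := norm_nonneg
        (p k * p l * (starRingEnd ℂ) (p j) - q k * q l * (starRingEnd ℂ) (q j))
      nlinarith [mul_le_mul_of_nonneg_right a3 a4])
  have e5 : ‖p k * (starRingEnd ℂ) (q k) - 1‖ = ‖p k - q k‖ := by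
    have e6 : (p k * (starRingEnd ℂ) (q k) - 1) * q k = p k - q k := by
      linear_combination (p k) * cj _ (hq1 k)
    rw [← e6, norm_mul, hq1, mul_one]
  rw [e5] at hk1
  have g1 := hg k (by omega) hb
  have g2 := h2 k (by omega)
  have g3 : ‖P k - Q k‖ ≤ ‖P k‖ * ‖p k - q k‖ + |‖P k‖ - ‖Q k‖| := by
    have e7 : P k - Q k = (‖P k‖ : ℝ) * (p k - q k) + ((‖P k‖ - ‖Q k‖ : ℝ) : ℂ) * q k := by
      conv_lhs => rw [hp2 k, hq2 k]
      push_cast; ring
    rw [e7]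
    refine (norm_add_le _ _).trans (le_of_eq ?_)
    rw [norm_mul, norm_mul, hq1, Complex.norm_real, Complex.norm_real, norm_norm, mul_one,
      Real.norm_eq_abs]
  have g4 : |‖P k‖ - ‖Q k‖| ≤ τ / 2 := by
    have a1 := g1.trans (norm_sub_le _ _)
    have e8 : ‖P k‖ ^ 2 - ‖Q k‖ ^ 2 = (‖P k‖ - ‖Q k‖) * (‖P k‖ + ‖Q k‖) := by ring
    rw [e8, abs_mul, abs_of_nonneg (show 0 ≤ ‖P k‖ + ‖Q k‖ by positivity)] at g2
    have a2 := abs_nonneg (‖P k‖ - ‖Q k‖)
    have a3 : |‖P k‖ - ‖Q k‖| * τ ≤ ε := le_trans (by gcongr) g2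
    by_contra hc
    push Not at hc
    nlinarith
  have g5 : ‖P k‖ * ‖p k - q k‖ ≤ E * ((2 * K + 1) * (54 * ε / τ ^ 3)) := by
    gcongr; exact hP k
  have g6 : τ / 2 ≤ E * ((2 * K + 1) * (54 * ε / τ ^ 3)) := by linarith
  have e9 : E * ((2 * K + 1) * (54 * ε / τ ^ 3)) = 54 * E * (2 * K + 1) * ε / τ ^ 3 := by ring
  rw [e9, le_div_iff₀ (by positivity)] at g6
  nlinarith

end Vale.Agent.P321
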