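import Mathlib

namespace Vale.Agent.P321

/-- The string left from `x` when exactly the positions `i` with `s i = true` survive. -/
def trace {n : ℕ} (x s : Fin n → Bool) : List Bool :=
  ((List.finRange n).filter s).map x

/-- Probability of the survival pattern `s` when each position is deleted with probability `q`. -/
noncomputable def weight {n : ℕ} (q : ℝ) (s : Fin n → Bool) : ℝ :=
  ∏ i, if s i then 1 - q else q

/-- Probability that `est` outputs `x` on `m` independent traces of `x`. -/
noncomputable def success {n m : ℕ} (q : ℝ) (est : (Fin m → List Bool) → (Fin n → Bool))
    (x : Fin n → Bool) : ℝ :=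
  ∑ S : Fin m → Fin n → Bool,
    if est (fun j => trace x (S j)) = x then ∏ j, weight q (S j) else 0

end Vale.Agent.P321
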