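import Mathlib

/-! A bounded function on a half-plane cannot be small at many boundary lattice points. -/

namespace Vale.Agent.P321

open Finset Complex

theorem sum_kernel_le (φ N : ℝ) (hN : 0 ≤ N) (K : Finset ℕ) (hK : ∀ k ∈ K, N ≤ |φ - k|) :
    ∑ k ∈ K, 1 / ((φ - k) ^ 2 + 1) ≤ 8 / (N + 1) := by
  obtain ⟨B, hB⟩ : ∃ B, K ⊆ range B := K.exists_nat_subset_range
  set G : ℕ → ℝ := fun k => 1 / (max (k - φ) N + 1) with hG
  set G' : ℕ → ℝ := fun k => 1 / (max (φ - k + 1) N + 1) with hG'
  have p1 : ∀ a : ℝ, 0 < max a N + 1 := fun a => by have := le_max_right a N; linarith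
  have m1 : ∀ k, G (k + 1) ≤ G k := by
    intro k
    simp only [hG]
    refine one_div_le_one_div_of_le (p1 _) ?_
    gcongr
    omega
  have m2 : ∀ k, G' k ≤ G' (k + 1) := by
    intro k
    simp only [hG']
    refine one_div_le_one_div_of_le (p1 _) ?_
    gcongr
    omega
  have base : ∀ x : ℝ, 0 ≤ x → 1 / (x ^ 2 + 1) ≤ 4 * (1 / (x + 1) - 1 / (x + 1 + 1)) := by
    intro x hx
    have e : 4 * (1 / (x + 1) - 1 / (x + 1 + 1)) = 4 / ((x + 1) * (x + 2)) := by
      field_simp; ring
    rw [e, div_le_div_iff₀ (by positivity) (by positivity)]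
    nlinarith [sq_nonneg (x - 1 / 2)]
  have t1 : ∀ k ∈ K, 1 / ((φ - k) ^ 2 + 1) ≤ 4 * ((G' (k + 1) - G (k + 1)) - (G' k - G k)) := by
    intro k hk
    have a := hK k hk
    have b1 := m1 k
    have b2 := m2 k
    rcases le_total 0 (φ - k) with h | h
    · rw [abs_of_nonneg h] at a
      have c1 : G' k = 1 / (φ - k + 1 + 1) := by
        simp only [hG']; rw [max_eq_left (by linarith)]
      have c2 : G' (k + 1) = 1 / (φ - k + 1) := by
        simp only [hG']; rw [max_eq_left (by push_cast; linarith)]; push_cast; ring_nf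
      have := base _ h
      linarith
    · rw [abs_of_nonpos h] at a
      have c1 : G k = 1 / (-(φ - k) + 1) := by
        simp only [hG]; rw [max_eq_left (by linarith)]; ring_nf
      have c2 : G (k + 1) = 1 / (-(φ - k) + 1 + 1) := by
        simp only [hG]; rw [max_eq_left (by push_cast; linarith)]; push_cast; ring_nf
      have := base (-(φ - k)) (by linarith)
      rw [neg_sq] at this
      linarith
  have u : ∀ a : ℝ, 1 / (max a N + 1) ≤ 1 / (N + 1) := fun a =>
    one_div_le_one_div_of_le (by linarith) (by have := le_max_right a N; linarith)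
  calc _ ≤ ∑ k ∈ K, 4 * ((G' (k + 1) - G (k + 1)) - (G' k - G k)) := sum_le_sum t1
    _ ≤ ∑ k ∈ range B, 4 * ((G' (k + 1) - G (k + 1)) - (G' k - G k)) := by
        refine sum_le_sum_of_subset_of_nonneg hB fun k _ _ => ?_
        have b1 := m1 k
        have b2 := m2 k
        linarith
    _ = 4 * ((G' B - G B) - (G' 0 - G 0)) := by
        rw [← mul_sum, sum_range_sub (fun k => G' k - G k)]
    _ ≤ _ := by
        have a1 : G' B ≤ 1 / (N + 1) := u _
        have a2 : G 0 ≤ 1 / (N + 1) := u _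
        have a3 : 0 ≤ G B := (one_div_pos.mpr (p1 _)).le
        have a4 : 0 ≤ G' 0 := (one_div_pos.mpr (p1 _)).le
        have e : 8 / (N + 1) = 8 * (1 / (N + 1)) := by ring
        linarith

theorem re_kernel (h : ℝ) (k : ℕ) (ζ : ℂ) :
    ((h : ℂ) / (ζ + h - k * h * I)).re =
      h * (ζ.re + h) / ((ζ.re + h) ^ 2 + (ζ.im - k * h) ^ 2) := by
  rw [Complex.div_re, Complex.normSq_apply]
  simp
  ring

theorem exc {B : ℂ → ℂ} (hB : Differentiable ℂ B) {ℓ D h τ κ N lam : ℝ} (hh : 0 < h)
    (hκ : 0 ≤ κ) (hN : 0 ≤ N) (hD : 0 ≤ D) (hℓ : 0 ≤ ℓ)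
    (hb : ∀ ζ : ℂ, 0 ≤ ζ.re → ‖B ζ‖ ≤ Real.exp ℓ)
    (hL : ∀ a b : ℝ, ‖B (a * I) - B (b * I)‖ ≤ D * |a - b|) (Bad : Finset ℕ)
    (hbad : ∀ k ∈ Bad, ‖B ((k * h : ℝ) * I)‖ ≤ τ) (h1 : 8 * κ ≤ N + 1)
    (h2 : Real.exp (8 * κ) * (τ + D * (N * h)) ≤ 1) (hlam : h ≤ lam)
    (hK : ∀ k ∈ Bad, k * h ≤ lam) {ζ : ℂ} (hre : ζ.re = lam) (him : |ζ.im| ≤ 25 * lam) :
    Real.exp (κ * (Bad.card * (h / (680 * lam)))) * ‖B ζ‖ ≤ Real.exp (ℓ + 1) := by
  set s : ℂ → ℂ := fun z => ∑ k ∈ Bad, (h : ℂ) / (z + h - k * h * I) with hs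
  have sre : ∀ z : ℂ, (s z).re =
      ∑ k ∈ Bad, h * (z.re + h) / ((z.re + h) ^ 2 + (z.im - k * h) ^ 2) := by
    intro z; simp only [hs, Complex.re_sum, re_kernel]
  set f : ℂ → ℂ := fun z => cexp (κ * s z) * B z with hf
  have nf : ∀ z, ‖f z‖ = Real.exp (κ * (s z).re) * ‖B z‖ := by
    intro z; simp only [hf, norm_mul, Complex.norm_exp, re_ofReal_mul]
  have fb : ∀ z : ℂ, 0 ≤ z.re → ‖f z‖ ≤ Real.exp (κ * Bad.card) * Real.exp ℓ := by
    intro z hz
    rw [nf]
    have : (s z).re ≤ Bad.card := by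
      rw [sre, card_eq_sum_ones, Nat.cast_sum]
      refine sum_le_sum fun k _ => ?_
      rw [div_le_iff₀ (by positivity)]
      push_cast
      nlinarith [sq_nonneg (z.im - k * h), mul_nonneg hz hh.le, sq_nonneg z.re]
    have := hb z hz
    gcongr
  have hd : DiffContOnCl ℂ f {z | 0 < z.re} := by
    refine DifferentiableOn.diffContOnCl ?_
    rw [Complex.closure_setOf_lt_re]
    intro z hz
    refine DifferentiableAt.differentiableWithinAt ?_
    refine DifferentiableAt.mul (DifferentiableAt.cexp ?_) (hB z)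
    refine DifferentiableAt.const_mul ?_ _
    refine DifferentiableAt.fun_sum fun k _ => ?_
    refine DifferentiableAt.div (by fun_prop) (by fun_prop) ?_
    intro h0
    have := congrArg Complex.re h0
    simp at this
    have hz' : 0 ≤ z.re := hz
    linarith
  have main : ‖f ζ‖ ≤ Real.exp (ℓ + 1) := by
    refine PhragmenLindelof.right_half_plane_of_bounded_on_real hd ⟨0, by norm_num, 0, ?_⟩ ?_ ?_
      (by rw [hre]; linarith)
    · refine Asymptotics.IsBigO.of_bound (Real.exp (κ * Bad.card) * Real.exp ℓ) ?_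
      refine Filter.eventually_inf_principal.mpr (Filter.Eventually.of_forall fun z hz => ?_)
      have hz' : 0 < z.re := hz
      simpa using fb z hz'.le
    · refine ⟨Real.exp (κ * Bad.card) * Real.exp ℓ, ?_⟩
      rw [Filter.eventually_map]
      filter_upwards [Filter.eventually_ge_atTop (0 : ℝ)] with t ht
      exact fb t (by simpa using ht)
    · intro t
      rw [nf]
      have e1 : (s (t * I)).re = ∑ k ∈ Bad, 1 / ((t / h - k) ^ 2 + 1) := by
        rw [sre]
        refine sum_congr rfl fun k _ => ?_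
        simp only [mul_re, ofReal_re, I_re, mul_zero, ofReal_im, I_im, mul_one, sub_self, zero_add,
          mul_im, add_zero]
        field_simp
        ring
      by_cases hfar : ∀ k ∈ Bad, N ≤ |t / h - k|
      · have a1 := sum_kernel_le (t / h) N hN Bad hfar
        have a2 : κ * (s (t * I)).re ≤ 1 := by
          rw [e1]
          calc _ ≤ κ * (8 / (N + 1)) := by gcongr
            _ ≤ 1 := by rw [← mul_div_assoc, div_le_one (by linarith)]; linarith
        have a3 := hb (t * I) (by simp)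
        rw [add_comm, Real.exp_add]
        gcongr
      · push Not at hfar
        obtain ⟨k, hk, hkn⟩ := hfar
        have a1 := sum_kernel_le (t / h) 0 le_rfl Bad (fun k _ => abs_nonneg _)
        have a2 : κ * (s (t * I)).re ≤ 8 * κ := by
          rw [e1]
          calc _ ≤ κ * (8 / (0 + 1)) := by gcongr
            _ = _ := by ring
        have a3 : ‖B (t * I)‖ ≤ τ + D * (N * h) := by
          have b1 := hL t (k * h)
          have b2 := hbad k hk
          have b3 : |t - k * h| ≤ N * h := by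
            have : t - k * h = (t / h - k) * h := by field_simp
            rw [this, abs_mul, abs_of_pos hh]
            gcongr
          have b4 : D * |t - k * h| ≤ D * (N * h) := by gcongr
          have b5 := norm_add_le (B (t * I) - B ((k * h : ℝ) * I)) (B ((k * h : ℝ) * I))
          rw [sub_add_cancel] at b5
          linarith
        calc _ ≤ Real.exp (8 * κ) * (τ + D * (N * h)) := by gcongr
          _ ≤ 1 := h2
          _ ≤ _ := Real.one_le_exp (by linarith)
  rw [nf] at main
  refine le_trans ?_ main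
  gcongr
  rw [sre, ← nsmul_eq_mul, ← sum_const]
  refine sum_le_sum fun k hk => ?_
  have hl : 0 < lam := by linarith
  rw [hre, div_le_div_iff₀ (by positivity) (by positivity)]
  have a1 := hK k hk
  have a2 : 0 ≤ k * h := by positivity
  have a3 : (ζ.im - k * h) ^ 2 ≤ (26 * lam) ^ 2 := by
    rw [abs_le] at him
    apply sq_le_sq'
    · linarith
    · linarith
  have a4 : (lam + h) ^ 2 ≤ (2 * lam) ^ 2 := by gcongr; linarith
  have a5 : (lam + h) ^ 2 + (ζ.im - k * h) ^ 2 ≤ (lam + h) * (680 * lam) := by nlinarith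
  calc h * ((lam + h) ^ 2 + (ζ.im - k * h) ^ 2) ≤ h * ((lam + h) * (680 * lam)) := by gcongr
    _ = _ := by ring

end Vale.Agent.P321
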