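import Mathlib

/-! Gaussian windows as averages of characters. -/

namespace Vale.Agent.P321

open Finset MeasureTheory ProbabilityTheory Complex

theorem gauss_core {ι : Type} (s : Finset ι) (c : ι → ℂ) (u : ι → ℝ) {b : ℝ} (hb : 0 < b)
    (v : NNReal) (hv : (v : ℝ) = 2 * b)
    (γ : ℝ) (h : ℝ → ℝ) (hi : Integrable h (gaussianReal 0 v))
    (hh : ∀ η : ℝ, ‖∑ i ∈ s, c i * cexp ((γ + η * I) * u i)‖ ≤ h η) :
    ‖∑ i ∈ s, c i * cexp (-b * u i ^ 2)‖ ≤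
      Real.exp (γ ^ 2 / (4 * b)) * ∫ η, h η ∂(gaussianReal 0 v) := by
  set ν := gaussianReal 0 v with hν
  have hbc : (b : ℂ) ≠ 0 := by exact_mod_cast hb.ne'
  have key : ∀ i, cexp (-b * u i ^ 2) = cexp ((γ ^ 2 / (4 * b) : ℝ)) *
      ∫ η : ℝ, cexp ((γ / (2 * b) : ℝ) * η * I) * cexp ((γ + η * I) * u i) ∂ν := by
    intro i
    have e1 : ∀ η : ℝ, cexp ((γ / (2 * b) : ℝ) * η * I) * cexp ((γ + η * I) * u i) =
        cexp (γ * u i) * cexp ((u i + γ / (2 * b) : ℝ) * η * I) := by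
      intro η
      rw [← Complex.exp_add, ← Complex.exp_add]
      congr 1; push_cast; ring
    simp_rw [e1]
    rw [integral_const_mul, ← charFun_apply_real, hν, charFun_gaussianReal, ← Complex.exp_add,
      ← Complex.exp_add]
    congr 1
    rw [hv]
    push_cast
    field_simp
    ring
  have hint : ∀ i, Integrable
      (fun η : ℝ => cexp ((γ / (2 * b) : ℝ) * η * I) * cexp ((γ + η * I) * u i)) ν := by
    intro i
    refine Integrable.of_bound (by fun_prop) (Real.exp (γ * u i)) (Filter.Eventually.of_forall ?_)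
    intro η
    rw [norm_mul, Complex.norm_exp, Complex.norm_exp]
    simp [-ofReal_div]
  have e2 : ∑ i ∈ s, c i * cexp (-b * u i ^ 2) = cexp ((γ ^ 2 / (4 * b) : ℝ)) *
      ∫ η : ℝ, cexp ((γ / (2 * b) : ℝ) * η * I) * ∑ i ∈ s, c i * cexp ((γ + η * I) * u i) ∂ν := by
    have e3 : ∀ η : ℝ, cexp ((γ / (2 * b) : ℝ) * η * I) *
        ∑ i ∈ s, c i * cexp ((γ + η * I) * u i) =
        ∑ i ∈ s, c i * (cexp ((γ / (2 * b) : ℝ) * η * I) * cexp ((γ + η * I) * u i)) := by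
      intro η; rw [mul_sum]; refine sum_congr rfl fun i _ => by ring
    simp_rw [e3]
    rw [integral_finset_sum _ (fun i _ => (hint i).const_mul _), mul_sum]
    refine sum_congr rfl fun i _ => ?_
    rw [integral_const_mul, key i]; ring
  rw [e2, norm_mul, Complex.norm_exp, ofReal_re]
  gcongr
  refine norm_integral_le_of_norm_le hi (Filter.Eventually.of_forall fun η => ?_)
  rw [norm_mul, Complex.norm_exp]
  simpa [-ofReal_div] using hh η

theorem gauss_T {ι : Type} (s : Finset ι) (c : ι → ℂ) (u : ι → ℝ) {b : ℝ} (hb : 0 < b)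
    (γ T : ℝ) (hh : ∀ η : ℝ, ‖∑ i ∈ s, c i * cexp ((γ + η * I) * u i)‖ ≤ T) :
    ‖∑ i ∈ s, c i * cexp (-b * u i ^ 2)‖ ≤ Real.exp (γ ^ 2 / (4 * b)) * T := by
  obtain ⟨v, hv⟩ : ∃ v : NNReal, (v : ℝ) = 2 * b := ⟨⟨2 * b, by positivity⟩, rfl⟩
  have := gauss_core s c u hb v hv γ (fun _ => T) (integrable_const _) hh
  simpa using this

theorem gauss_eps {ι : Type} (s : Finset ι) (c : ι → ℂ) (u : ι → ℝ) {b : ℝ} (hb : 0 < b)
    (γ T ε r δ : ℝ) (hr : 0 ≤ r) (hδ : Real.exp (-(r ^ 2 / (4 * b))) ≤ δ)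
    (hT : ∀ η : ℝ, ‖∑ i ∈ s, c i * cexp ((γ + η * I) * u i)‖ ≤ T)
    (hε : ∀ η : ℝ, |η| ≤ r → ‖∑ i ∈ s, c i * cexp ((γ + η * I) * u i)‖ ≤ ε) :
    ‖∑ i ∈ s, c i * cexp (-b * u i ^ 2)‖ ≤ Real.exp (γ ^ 2 / (4 * b)) * (ε + 2 * T * δ) := by
  have hT0 : 0 ≤ T := le_trans (norm_nonneg _) (hT 0)
  have hε0 : 0 ≤ ε := le_trans (norm_nonneg _) (hε 0 (by simpa using hr))
  set t := r / (2 * b) with ht
  have ht0 : 0 ≤ t := by positivity
  obtain ⟨v, hv⟩ : ∃ v : NNReal, (v : ℝ) = 2 * b := ⟨⟨2 * b, by positivity⟩, rfl⟩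
  have i1 := integrable_exp_mul_gaussianReal (μ := 0) (v := v) t
  have i2 := integrable_exp_mul_gaussianReal (μ := 0) (v := v) (-t)
  have m1 := congrFun (mgf_fun_id_gaussianReal (μ := 0) (v := v)) t
  have m2 := congrFun (mgf_fun_id_gaussianReal (μ := 0) (v := v)) (-t)
  simp only [mgf, hv, zero_mul, zero_add] at m1 m2
  have i3 : Integrable (fun η => Real.exp (t * η) + Real.exp (-t * η)) (gaussianReal 0 v) :=
    i1.add i2
  have := gauss_core s c u hb v hv γ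
    (fun η => ε + T * Real.exp (-(t * r)) * (Real.exp (t * η) + Real.exp (-t * η)))
    ((integrable_const _).add (i3.const_mul _)) ?_
  · refine this.trans ?_
    gcongr
    rw [integral_add (integrable_const _) (i3.const_mul _), integral_const_mul,
      integral_add i1 i2, m1, m2]
    simp only [integral_const, probReal_univ, smul_eq_mul, one_mul, even_two, Even.neg_pow]
    have e : Real.exp (-(t * r)) * Real.exp (2 * b * t ^ 2 / 2) =
        Real.exp (-(r ^ 2 / (4 * b))) := by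
      rw [← Real.exp_add]; congr 1; rw [ht]; field_simp; ring
    have : T * Real.exp (-(r ^ 2 / (4 * b))) ≤ T * δ := by gcongr
    nlinarith
  · intro η
    by_cases hη : |η| ≤ r
    · have := hε η hη
      have : 0 ≤ T * Real.exp (-(t * r)) * (Real.exp (t * η) + Real.exp (-t * η)) := by positivity
      linarith
    · push Not at hη
      have h1 : 1 ≤ Real.exp (-(t * r)) * (Real.exp (t * η) + Real.exp (-t * η)) := by
        have a1 := Real.exp_pos (t * η)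
        have a2 := Real.exp_pos (-t * η)
        have a3 := Real.exp_pos (-(t * r))
        rcases le_or_gt 0 η with h0 | h0
        · rw [abs_of_nonneg h0] at hη
          have : 1 ≤ Real.exp (-(t * r)) * Real.exp (t * η) := by
            rw [← Real.exp_add]; apply Real.one_le_exp; nlinarith
          nlinarith
        · rw [abs_of_neg h0] at hη
          have : 1 ≤ Real.exp (-(t * r)) * Real.exp (-t * η) := by
            rw [← Real.exp_add]; apply Real.one_le_exp; nlinarith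
          nlinarith
      have := hT η
      nlinarith

theorem gauss3 {ι : Type} (s : Finset ι) (c : ι → ℂ) (u1 u2 u3 : ι → ℝ) {b1 b2 b3 : ℝ}
    (hb1 : 0 < b1) (hb2 : 0 < b2) (hb3 : 0 < b3) (γ1 γ2 γ3 T ε r δ : ℝ) (hr : 0 ≤ r)
    (hδ1 : Real.exp (-(r ^ 2 / (4 * b1))) ≤ δ) (hδ2 : Real.exp (-(r ^ 2 / (4 * b2))) ≤ δ)
    (hδ3 : Real.exp (-(r ^ 2 / (4 * b3))) ≤ δ)
    (hT : ∀ η1 η2 η3 : ℝ, ‖∑ i ∈ s, c i * cexp ((γ3 + η3 * I) * u3 i) *
      cexp ((γ2 + η2 * I) * u2 i) * cexp ((γ1 + η1 * I) * u1 i)‖ ≤ T)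
    (hε : ∀ η1 η2 η3 : ℝ, |η1| ≤ r → |η2| ≤ r → |η3| ≤ r →
      ‖∑ i ∈ s, c i * cexp ((γ3 + η3 * I) * u3 i) *
      cexp ((γ2 + η2 * I) * u2 i) * cexp ((γ1 + η1 * I) * u1 i)‖ ≤ ε) :
    ‖∑ i ∈ s, c i * cexp (-b1 * u1 i ^ 2) * cexp (-b2 * u2 i ^ 2) * cexp (-b3 * u3 i ^ 2)‖ ≤
      Real.exp (γ1 ^ 2 / (4 * b1) + γ2 ^ 2 / (4 * b2) + γ3 ^ 2 / (4 * b3)) * (ε + 6 * T * δ) := by
  set E1 := Real.exp (γ1 ^ 2 / (4 * b1)) with hE1
  set E2 := Real.exp (γ2 ^ 2 / (4 * b2)) with hE2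
  set E3 := Real.exp (γ3 ^ 2 / (4 * b3)) with hE3
  have T1 : ∀ η2 η3 : ℝ, ‖∑ i ∈ s, c i * cexp (-b1 * u1 i ^ 2) * cexp ((γ3 + η3 * I) * u3 i) *
      cexp ((γ2 + η2 * I) * u2 i)‖ ≤ E1 * T := by
    intro η2 η3
    have := gauss_T s (fun i => c i * cexp ((γ3 + η3 * I) * u3 i) * cexp ((γ2 + η2 * I) * u2 i))
      u1 hb1 γ1 T (fun η => hT η η2 η3)
    refine le_of_eq_of_le ?_ this
    congr 1; refine sum_congr rfl fun i _ => by ring
  have S1 : ∀ η2 η3 : ℝ, |η2| ≤ r → |η3| ≤ r →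
      ‖∑ i ∈ s, c i * cexp (-b1 * u1 i ^ 2) * cexp ((γ3 + η3 * I) * u3 i) *
      cexp ((γ2 + η2 * I) * u2 i)‖ ≤ E1 * (ε + 2 * T * δ) := by
    intro η2 η3 h2 h3
    have := gauss_eps s
      (fun i => c i * cexp ((γ3 + η3 * I) * u3 i) * cexp ((γ2 + η2 * I) * u2 i))
      u1 hb1 γ1 T ε r δ hr hδ1 (fun η => hT η η2 η3) (fun η h => hε η η2 η3 h h2 h3)
    refine le_of_eq_of_le ?_ this
    congr 1; refine sum_congr rfl fun i _ => by ring
  have T2 : ∀ η3 : ℝ, ‖∑ i ∈ s, c i * cexp (-b1 * u1 i ^ 2) * cexp (-b2 * u2 i ^ 2) *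
      cexp ((γ3 + η3 * I) * u3 i)‖ ≤ E2 * (E1 * T) := by
    intro η3
    have := gauss_T s (fun i => c i * cexp (-b1 * u1 i ^ 2) * cexp ((γ3 + η3 * I) * u3 i))
      u2 hb2 γ2 (E1 * T) (fun η => T1 η η3)
    refine le_of_eq_of_le ?_ this
    congr 1; refine sum_congr rfl fun i _ => by ring
  have S2 : ∀ η3 : ℝ, |η3| ≤ r → ‖∑ i ∈ s, c i * cexp (-b1 * u1 i ^ 2) * cexp (-b2 * u2 i ^ 2) *
      cexp ((γ3 + η3 * I) * u3 i)‖ ≤ E2 * (E1 * (ε + 2 * T * δ) + 2 * (E1 * T) * δ) := by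
    intro η3 h3
    have := gauss_eps s (fun i => c i * cexp (-b1 * u1 i ^ 2) * cexp ((γ3 + η3 * I) * u3 i))
      u2 hb2 γ2 (E1 * T) _ r δ hr hδ2 (fun η => T1 η η3) (fun η h => S1 η η3 h h3)
    refine le_of_eq_of_le ?_ this
    congr 1; refine sum_congr rfl fun i _ => by ring
  have := gauss_eps s (fun i => c i * cexp (-b1 * u1 i ^ 2) * cexp (-b2 * u2 i ^ 2))
    u3 hb3 γ3 _ _ r δ hr hδ3 T2 S2
  refine this.trans (le_of_eq ?_)
  rw [Real.exp_add, Real.exp_add]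
  ring

end Vale.Agent.P321
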