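import Vale.Agent.P321.Defs
import Vale.Agent.P321.Acc

/-! The maximum likelihood estimator. -/

namespace Vale.Agent.P321

open Finset

theorem sqrt_ineq {a b ρ : ℝ} (ha : 0 ≤ a) (hb : 0 ≤ b) (hρ : 0 < ρ) :
    |a - b| ≤ (a + b - 2 * (√a * √b)) / (2 * ρ) + ρ * (a + b) := by
  obtain ⟨u, hu, rfl⟩ : ∃ u, 0 ≤ u ∧ a = u ^ 2 := ⟨√a, Real.sqrt_nonneg _, (Real.sq_sqrt ha).symm⟩
  obtain ⟨v, hv, rfl⟩ : ∃ v, 0 ≤ v ∧ b = v ^ 2 := ⟨√b, Real.sqrt_nonneg _, (Real.sq_sqrt hb).symm⟩
  rw [Real.sqrt_sq hu, Real.sqrt_sq hv, div_add' _ _ _ (by positivity), le_div_iff₀ (by positivity)]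
  rcases abs_cases (u ^ 2 - v ^ 2) with ⟨h, -⟩ | ⟨h, -⟩ <;> rw [h]
  · nlinarith [sq_nonneg (u - v - ρ * (u + v)), sq_nonneg (ρ * (u - v))]
  · nlinarith [sq_nonneg (u - v + ρ * (u + v)), sq_nonneg (ρ * (u - v))]

theorem ml {X Ω τ : Type} [Fintype X] [Nonempty X] [DecidableEq X] [Fintype Ω] [DecidableEq τ]
    (W : Ω → ℝ) (hW : ∀ s, 0 < W s) (hW1 : ∑ s, W s = 1) (tr : X → Ω → τ) {d : ℝ} (hd : 0 < d)
    (hsep : ∀ x y, x ≠ y → ∃ g : τ → ℂ, (∀ z s, ‖g (tr z s)‖ ≤ 1) ∧
      d ≤ ‖∑ s, (W s : ℂ) * g (tr x s) - ∑ s, (W s : ℂ) * g (tr y s)‖) (m : ℕ) :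
    ∃ est : (Fin m → τ) → X, ∀ x,
      1 - Fintype.card X * Real.exp (-(m * (d ^ 2 / 8))) ≤
        ∑ S : Fin m → Ω, if est (fun j => tr x (S j)) = x then ∏ j, W (S j) else 0 := by
  classical
  set D : X → τ → ℝ := fun x t => ∑ s, if tr x s = t then W s else 0 with hD
  set T : Finset τ := univ.image fun a : X × Ω => tr a.1 a.2 with hT
  have D0 : ∀ x t, 0 ≤ D x t := fun x t => sum_nonneg fun s _ => by
    split_ifs; exacts [(hW s).le, le_rfl]
  have Dpos : ∀ x s, 0 < D x (tr x s) := fun x s => by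
    refine lt_of_lt_of_le (hW s) ?_
    have := single_le_sum (f := fun s' => if tr x s' = tr x s then W s' else 0) (s := univ)
      (fun s' _ => by split_ifs; exacts [(hW s').le, le_rfl]) (mem_univ s)
    simpa using this
  have memT : ∀ x s, tr x s ∈ T := fun x s => mem_image.mpr ⟨(x, s), mem_univ _, rfl⟩
  have fib : ∀ x (φ : τ → ℝ), ∑ s, W s * φ (tr x s) = ∑ t ∈ T, D x t * φ t := by
    intro x φ
    simp only [hD, sum_mul]
    rw [sum_comm]
    refine sum_congr rfl fun s _ => ?_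
    simp [memT x s]
  have fibC : ∀ x (φ : τ → ℂ), ∑ s, (W s : ℂ) * φ (tr x s) = ∑ t ∈ T, (D x t : ℂ) * φ t := by
    intro x φ
    simp only [hD, Complex.ofReal_sum, sum_mul]
    rw [sum_comm]
    refine sum_congr rfl fun s _ => ?_
    simp [apply_ite, memT x s]
  have D1 : ∀ x, ∑ t ∈ T, D x t = 1 := fun x => by simpa [hW1] using (fib x fun _ => 1).symm
  have BC : ∀ x y, x ≠ y → ∑ s, W s * (√(D y (tr x s)) / √(D x (tr x s))) ≤ 1 - d ^ 2 / 8 := by
    intro x y hxy
    obtain ⟨g, g1, g2⟩ := hsep x y hxy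
    rw [fib x (fun t => √(D y t) / √(D x t))]
    have a1 : ∑ t ∈ T, D x t * (√(D y t) / √(D x t)) = ∑ t ∈ T, √(D x t) * √(D y t) := by
      refine sum_congr rfl fun t _ => ?_
      rw [mul_div_left_comm, Real.div_sqrt, mul_comm]
    have a2 : d ≤ ∑ t ∈ T, |D x t - D y t| := by
      rw [fibC, fibC, ← sum_sub_distrib] at g2
      refine g2.trans ((norm_sum_le _ _).trans (sum_le_sum fun t ht => ?_))
      obtain ⟨a, -, rfl⟩ := mem_image.mp ht
      rw [← sub_mul, norm_mul, ← Complex.ofReal_sub, Complex.norm_real, Real.norm_eq_abs]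
      exact mul_le_of_le_one_right (abs_nonneg _) (g1 _ _)
    have a3 := a2.trans (sum_le_sum fun t _ => sqrt_ineq (D0 x t) (D0 y t)
      (show 0 < d / 4 by positivity))
    rw [sum_add_distrib, ← sum_div, ← mul_sum, sum_sub_distrib, sum_add_distrib, ← mul_sum, D1, D1,
      div_add' _ _ _ (by positivity), le_div_iff₀ (by positivity)] at a3
    rw [a1]
    nlinarith
  have ex : ∀ ts : Fin m → τ, ∃ y, ∀ z, ∏ j, √(D z (ts j)) ≤ ∏ j, √(D y (ts j)) := fun ts =>
    Finite.exists_max fun z => ∏ j, √(D z (ts j))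
  choose est hest using ex
  refine ⟨est, fun x => ?_⟩
  have tot : ∑ S : Fin m → Ω, ∏ j, W (S j) = 1 := by
    rw [← Fintype.piFinset_univ, ← prod_univ_sum]; simp [hW1]
  have pt : ∀ S : Fin m → Ω, ∏ j, W (S j) - ∑ y ∈ univ.erase x,
      ∏ j, (W (S j) * (√(D y (tr x (S j))) / √(D x (tr x (S j))))) ≤
      if est (fun j => tr x (S j)) = x then ∏ j, W (S j) else 0 := by
    intro S
    have nn : ∀ y ∈ univ.erase x,
        0 ≤ ∏ j, (W (S j) * (√(D y (tr x (S j))) / √(D x (tr x (S j))))) :=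
      fun y _ => prod_nonneg fun j _ => by have := hW (S j); positivity
    split_ifs with h
    · have := sum_nonneg nn; linarith
    · have a1 := single_le_sum nn (mem_erase.mpr ⟨h, mem_univ _⟩)
      have a2 := hest (fun j => tr x (S j)) x
      have a3 : 0 < ∏ j, √(D x (tr x (S j))) := prod_pos fun j _ => Real.sqrt_pos.mpr (Dpos x _)
      have a4 : 0 < ∏ j, W (S j) := prod_pos fun j _ => hW _
      rw [prod_mul_distrib, prod_div_distrib] at a1
      have a5 := (one_le_div a3).mpr a2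
      nlinarith
  refine le_trans ?_ (sum_le_sum fun S _ => pt S)
  rw [sum_sub_distrib, tot, sum_comm]
  have last : ∀ y ∈ univ.erase x, ∑ S : Fin m → Ω,
      ∏ j, (W (S j) * (√(D y (tr x (S j))) / √(D x (tr x (S j))))) ≤
      Real.exp (-(m * (d ^ 2 / 8))) := by
    intro y hy
    have e := prod_univ_sum (fun _ : Fin m => (univ : Finset Ω))
      (fun _ s => W s * (√(D y (tr x s)) / √(D x (tr x s))))
    rw [Fintype.piFinset_univ] at e
    rw [← e, prod_const, card_univ, Fintype.card_fin, ← mul_neg, Real.exp_nat_mul]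
    have b1 := BC x y (mem_erase.mp hy).1.symm
    have b2 := Real.add_one_le_exp (-(d ^ 2 / 8))
    have b3 : 0 ≤ ∑ s, W s * (√(D y (tr x s)) / √(D x (tr x s))) :=
      sum_nonneg fun s _ => by have := hW s; positivity
    gcongr
    linarith
  have a1 := sum_le_sum last
  rw [sum_const, nsmul_eq_mul] at a1
  have a2 : ((univ.erase x).card : ℝ) ≤ Fintype.card X := by
    exact_mod_cast card_le_univ _
  have a3 : ((univ.erase x).card : ℝ) * Real.exp (-(m * (d ^ 2 / 8))) ≤
      Fintype.card X * Real.exp (-(m * (d ^ 2 / 8))) := by gcongr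
  linarith

theorem trace_cons {n : ℕ} (x : Fin (n + 1) → Bool) (b : Bool) (s : Fin n → Bool) :
    trace x (Fin.cons b s) =
      if b then x 0 :: trace (Fin.tail x) s else trace (Fin.tail x) s := by
  have e : (Fin.cons b s : Fin (n + 1) → Bool) ∘ Fin.succ = s := by funext i; simp
  have e' : x ∘ Fin.succ = Fin.tail x := rfl
  cases b <;> simp [trace, List.finRange_succ, List.filter_map, e, e']

theorem Ex_eq (q : ℝ) {n : ℕ} : ∀ (x : Fin n → Bool) (f : List Bool → ℂ),
    Ex (1 - q) (List.ofFn x) f = ∑ s, (weight q s : ℂ) * f (trace x s) := by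
  induction n with
  | zero => intro x f; simp [Ex, weight, trace]
  | succ n ih =>
    intro x f
    rw [List.ofFn_succ, Ex, ← (Fin.consEquiv fun _ => Bool).sum_comp, Fintype.sum_prod_type]
    have e : (fun i : Fin n => x i.succ) = Fin.tail x := rfl
    rw [e, ih, ih, mul_sum, mul_sum]
    have e2 : ∀ (b : Bool) (s : Fin n → Bool),
        (Fin.consEquiv fun _ => Bool) (b, s) = (Fin.cons b s : Fin (n + 1) → Bool) := fun _ _ => rfl
    simp only [Fintype.univ_bool, mem_singleton, Bool.true_eq_false, not_false_eq_true,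
      sum_insert, sum_singleton, e2]
    congr 1 <;> refine sum_congr rfl fun s _ => ?_
    · simp [trace_cons, weight, Fin.prod_univ_succ, mul_assoc]
    · simp [trace_cons, weight, Fin.prod_univ_succ, mul_assoc]

theorem weight_pos {q : ℝ} (h0 : 0 < q) (h1 : q < 1) {n : ℕ} (s : Fin n → Bool) :
    0 < weight q s := prod_pos fun i _ => by split_ifs <;> linarith

theorem weight_sum (q : ℝ) (n : ℕ) : ∑ s : Fin n → Bool, weight q s = 1 := by
  have e := prod_univ_sum (fun _ : Fin n => (univ : Finset Bool))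
    (fun _ b => if b then 1 - q else q)
  rw [Fintype.piFinset_univ] at e
  simp only [weight]
  rw [← e]; simp

theorem trace_length {n : ℕ} (x s : Fin n → Bool) : (trace x s).length ≤ n := by
  rw [trace, List.length_map]
  simpa using List.length_filter_le s (List.finRange n)

end Vale.Agent.P321
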