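import Vale.Agent.P321.Step
import Vale.Agent.P321.ML

/-! Choice of scales and the separation theorem. -/

namespace Vale.Agent.P321

open Finset Complex

/-- Doubly exponentially decreasing ratios. -/
noncomputable def rr (j : ℕ) : ℝ := (1 / 16) ^ (2 ^ j)
/-- Frequency windows. -/
noncomputable def Th (p N : ℝ) (j : ℕ) : ℝ := rr j * p / (8 * N ^ 2)
/-- Accuracy exponents. -/
noncomputable def kap (p N : ℝ) (j : ℕ) : ℝ := 2 ^ (20 * j) * (2 ^ 26 * N ^ 5 / p)
/-- Gaussian window parameters. -/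
noncomputable def bet (p N : ℝ) (K j : ℕ) : ℝ :=
  if j < K then Th p N (j + 1) ^ 2 / (6 * kap p N j) else 0
/-- Abscissae. -/
noncomputable def lam (p N : ℝ) : ℕ → ℝ
  | 0 => 2
  | j + 1 => Th p N (j + 1)
/-- Separation exponents. -/
noncomputable def LL (p N : ℝ) : ℕ → ℝ
  | 0 => 1
  | j + 1 => 90 * kap p N j

theorem rr_pos (j : ℕ) : 0 < rr j := by unfold rr; positivity
theorem rr_succ (j : ℕ) : rr (j + 1) = rr j ^ 2 := by unfold rr; rw [pow_succ, pow_mul]
theorem rr_le (j : ℕ) : rr j ≤ 1 / 16 := by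
  unfold rr
  calc ((1 : ℝ) / 16) ^ (2 ^ j) ≤ (1 / 16) ^ 1 :=
        pow_le_pow_of_le_one (by norm_num) (by norm_num) Nat.one_le_two_pow
    _ = _ := pow_one _
theorem rr_exp (j : ℕ) : 1 ≤ Real.exp (4 * 2 ^ j) * rr j := by
  have h1 : (2 : ℝ) ≤ Real.exp 1 := by have := Real.add_one_le_exp 1; linarith
  have h2 : (16 : ℝ) ≤ Real.exp 4 := by
    have : Real.exp 4 = Real.exp 1 ^ 4 := by rw [← Real.exp_nat_mul]; norm_num
    rw [this]
    calc (16 : ℝ) = 2 ^ 4 := by norm_num
      _ ≤ _ := by gcongr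
  have h3 : Real.exp (4 * 2 ^ j) = Real.exp 4 ^ (2 ^ j) := by
    rw [← Real.exp_nat_mul]; congr 1; push_cast; ring
  rw [h3, rr, ← mul_pow]
  exact one_le_pow₀ (by linarith)

theorem base {n m : ℕ} {x y : List Bool} (hx : x.length = n) (hy : y.length = n) (hmn : m < n)
    (hm : ∀ t, m < t → x.drop t = y.drop t) (hne : x[m]'(hx ▸ hmn) ≠ y[m]'(hy ▸ hmn))
    {β C α : ℝ} (hβ : 0 ≤ β) (hα : 0 ≤ α) :
    ¬ Small m β (Reg C α) 2 x y 2 (Real.exp (-1)) := by
  intro hs
  set F : List Bool → ℂ := fun xs => if xs.head? = some true then 1 else 0 with hF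
  have hc : Cl (Reg C α) 2 (3 ^ (8 * 2)) F :=
    Cl.of_head hα (by omega) (fun c => if c = true then 1 else 0)
      (fun c => by split_ifs <;> simp) (fun c xs => by simp [hF])
  have h1 := hs F hc 2 (by simp) (by simp)
  have h2 : (2 : ℝ) ≤ Real.exp 1 := by have := Real.add_one_le_exp 1; linarith
  have h3 : Real.exp (-1) ≤ 1 / 2 := by
    rw [Real.exp_neg, ← one_div]; gcongr
  have h4 : Real.exp (-2) ≤ 1 / 4 := by
    have : Real.exp (-2) = Real.exp (-1) ^ 2 := by rw [← Real.exp_nat_mul]; norm_num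
    rw [this]
    calc _ ≤ ((1 : ℝ) / 2) ^ 2 := by gcongr
      _ = _ := by norm_num
  have geo : ∀ m : ℕ, ∑ t ∈ range m, Real.exp (2 * sh m t) ≤ 1 / 3 := by
    intro m
    induction m with
    | zero => simp
    | succ m ih =>
      have e : ∀ t, Real.exp (2 * sh (m + 1) t) = Real.exp (-2) * Real.exp (2 * sh m t) := by
        intro t; rw [← Real.exp_add]; congr 1; simp only [sh]; push_cast; ring
      simp only [e]
      rw [← mul_sum, sum_range_succ]
      have : sh m m = 0 := by simp [sh]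
      rw [this, mul_zero, Real.exp_zero]
      have := sum_nonneg (s := range m) (f := fun t => Real.exp (2 * sh m t))
        fun t _ => (Real.exp_pos _).le
      calc _ ≤ (1 / 4 : ℝ) * (1 / 3 + 1) := by gcongr
        _ = _ := by norm_num
  rw [V, V, hx, hy, ← sum_sub_distrib, ← sum_subset (s₁ := range (m + 1))
    (range_subset_range.mpr hmn) (by
      intro t _ ht
      rw [mem_range, not_lt] at ht
      simp only [term, hm t (by omega), sub_self]), sum_range_succ] at h1
  have h5 : ‖term m β F x 2 m - term m β F y 2 m‖ = 1 := by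
    simp only [term, sh, sub_self, ofReal_zero, mul_zero, ne_eq, OfNat.ofNat_ne_zero,
      not_false_eq_true, zero_pow, Complex.exp_zero, one_mul, hF, List.head?_drop,
      List.getElem?_eq_getElem (hx ▸ hmn : m < x.length),
      List.getElem?_eq_getElem (hy ▸ hmn : m < y.length), Option.some.injEq]
    revert hne
    cases x[m]'(hx ▸ hmn) <;> cases y[m]'(hy ▸ hmn) <;> simp
  have h6 : ‖∑ t ∈ range m, (term m β F x 2 t - term m β F y 2 t)‖ ≤ 1 / 3 := by
    refine (norm_sum_le _ _).trans (le_trans (sum_le_sum fun t _ => ?_) (geo m))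
    rw [term, term, ← mul_sub, norm_mul, norm_mul, Complex.norm_exp (2 * _)]
    have a1 := norm_gw_le hβ (sh m t)
    have a2 : ‖F (x.drop t) - F (y.drop t)‖ ≤ 1 := by
      simp only [hF]; split_ifs <;> simp
    have a3 : (2 * (sh m t : ℂ)).re = 2 * sh m t := by simp
    rw [a3]
    calc _ ≤ 1 * Real.exp (2 * sh m t) * 1 := by gcongr
      _ = _ := by ring
  have h7 := norm_sub_le (∑ t ∈ range m, (term m β F x 2 t - term m β F y 2 t) +
    (term m β F x 2 m - term m β F y 2 m)) (∑ t ∈ range m, (term m β F x 2 t - term m β F y 2 t))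
  rw [add_sub_cancel_left, h5] at h7
  linarith

theorem three_le_exp : (3 : ℝ) ≤ Real.exp 2 := by have := Real.add_one_le_exp 2; linarith

theorem ell_bound {n k : ℕ} {N : ℝ} (hN : 2 ≤ N) (hn : (n : ℝ) ≤ Real.exp N)
    (hk : (k : ℝ) ≤ 2 * N ^ 2) :
    n * (2 * (3 ^ (8 * k) * (n : ℝ) ^ k)) ≤ Real.exp (30 * N ^ 3) := by
  have h2 : (2 : ℝ) ≤ Real.exp 1 := by have := Real.add_one_le_exp 1; linarith
  have h3 := three_le_exp
  calc _ ≤ Real.exp N * (Real.exp 1 * (Real.exp 2 ^ (8 * k) * Real.exp N ^ k)) := by gcongr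
    _ = Real.exp (N + 1 + 16 * k + k * N) := by
        rw [← Real.exp_nat_mul, ← Real.exp_nat_mul, ← Real.exp_add, ← Real.exp_add,
          ← Real.exp_add]
        congr 1; push_cast; ring
    _ ≤ _ := by
        rw [Real.exp_le_exp]
        have a1 : k * N ≤ 2 * N ^ 2 * N := by gcongr
        have a2 : 2 * N ^ 2 ≤ N ^ 3 := by nlinarith
        have a3 : 2 * N ≤ N ^ 2 := by nlinarith
        nlinarith

section params

variable {p N : ℝ} (hp : 0 < p) (hp1 : p ≤ 1) (hN : 2 ≤ N)
include hp hN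

theorem Th_pos (j : ℕ) : 0 < Th p N j := by
  have := rr_pos j; unfold Th; positivity

theorem Th_succ (j : ℕ) : Th p N (j + 1) = rr j * Th p N j := by
  unfold Th; rw [rr_succ]; ring

theorem kap_pos (j : ℕ) : 0 < kap p N j := by unfold kap; positivity

theorem kap_succ (j : ℕ) : kap p N (j + 1) = 2 ^ 20 * kap p N j := by unfold kap; ring

include hp1

theorem kap_ge (j : ℕ) : 2 ^ 26 * N ^ 5 ≤ kap p N j := by
  unfold kap
  have a1 : (1 : ℝ) ≤ 2 ^ (20 * j) := one_le_pow₀ (by norm_num)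
  have a2 : 2 ^ 26 * N ^ 5 ≤ 2 ^ 26 * N ^ 5 / p := le_div_self (by positivity) hp hp1
  calc _ ≤ 1 * (2 ^ 26 * N ^ 5 / p) := by linarith
    _ ≤ _ := by gcongr

theorem Th_le (j : ℕ) : Th p N j ≤ p / N ^ 2 := by
  unfold Th
  have := rr_le j
  rw [div_le_div_iff₀ (by positivity) (by positivity)]
  have : 0 < p * N ^ 2 := by positivity
  nlinarith

theorem Th_le_one (j : ℕ) : Th p N j ≤ 1 := by
  refine (Th_le hp hp1 hN j).trans ?_
  rw [div_le_one (by positivity)]; nlinarith

theorem h7_all (j : ℕ) :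
    6120 * lam p N j * (LL p N j + 30 * N ^ 3 + 1) ≤ kap p N j * Th p N j := by
  have a3 : 8 ≤ N ^ 3 := by
    calc (8 : ℝ) = 2 ^ 3 := by norm_num
      _ ≤ _ := by gcongr
  cases j with
  | zero =>
    have e : kap p N 0 * Th p N 0 = 2 ^ 19 * N ^ 3 := by
      unfold kap Th rr; field_simp; ring
    rw [e, lam, LL]; linarith
  | succ j =>
    rw [lam, LL, kap_succ hp hN]
    have a1 := kap_ge hp hp1 hN j
    have a2 := Th_pos hp hN (j + 1)
    have a4 : N ^ 3 ≤ N ^ 5 := pow_le_pow_right₀ (by linarith) (by norm_num)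
    have a5 : 6120 * (90 * kap p N j + 30 * N ^ 3 + 1) ≤ 2 ^ 20 * kap p N j := by linarith
    calc _ = 6120 * (90 * kap p N j + 30 * N ^ 3 + 1) * Th p N (j + 1) := by ring
      _ ≤ _ := by gcongr

theorem levels {n m K : ℕ} {x y : List Bool} (hx : x.length = n) (hy : y.length = n) (hmn : m < n)
    (hm : ∀ t, m < t → x.drop t = y.drop t) (hne : x[m]'(hx ▸ hmn) ≠ y[m]'(hy ▸ hmn))
    (hK : N = 2 ^ K) (hn : (n : ℝ) ≤ Real.exp N) : ∀ j ≤ K,
    ¬ Small m (bet p N K j) (Reg (2 * N ^ 2 / p / 4 ^ j) (p * 4 ^ j / N ^ 2)) (2 * 4 ^ j) x y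
      (lam p N j) (Real.exp (-LL p N j)) := by
  have bet0 : ∀ j, 0 ≤ bet p N K j := by
    intro j
    have := kap_pos hp hN j
    unfold bet; split_ifs <;> positivity
  intro j
  induction j with
  | zero => intro _; exact base hx hy hmn hm hne (bet0 0) (by positivity)
  | succ j ih =>
    intro hj hs
    apply ih (by omega)
    have t0 := Th_pos hp hN j
    have t1 := Th_pos hp hN (j + 1)
    have t2 := Th_succ hp hN j
    have r0 := rr_pos j
    have r1 := rr_le j
    have k0 := kap_pos hp hN j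
    have k1 := kap_ge hp hp1 hN j
    have j2 : (2 : ℝ) ^ j ≤ N := by rw [hK]; exact pow_le_pow_right₀ (by norm_num) (by omega)
    have j4 : (4 : ℝ) ^ j ≤ N ^ 2 := by
      calc (4 : ℝ) ^ j = (2 ^ j) ^ 2 := by rw [← pow_mul, mul_comm, pow_mul]; norm_num
        _ ≤ _ := by gcongr
    have j1 : (1 : ℝ) ≤ 4 ^ j := one_le_pow₀ (by norm_num)
    have n5 : N ^ 3 ≤ N ^ 5 := pow_le_pow_right₀ (by linarith) (by norm_num)
    have n3 : N ≤ N ^ 3 := le_self_pow₀ (by linarith) (by norm_num)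
    have eb : bet p N K j = Th p N (j + 1) ^ 2 / (6 * kap p N j) := if_pos (by omega)
    refine zoom hx hy hmn hm (β' := bet p N K (j + 1)) (Λ := Th p N (j + 1)) (Θ := Th p N j)
      (κ := kap p N j) (ℓ := 30 * N ^ 3) (by have := Nat.one_le_pow j 4 (by norm_num); omega)
      (by positivity) t1 (by rw [eb]; positivity) (bet0 _) ?_ (by rw [eb]; field_simp) ?_
      (by rw [t2]; nlinarith) ?_ (ell_bound hN hn (by push_cast; linarith)) (by positivity)
      (by linarith) (by linarith) ?_ (Th_le_one hp hp1 hN j) ?_ (h7_all hp hp1 hN j) ?_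
    · rw [eb]
      unfold bet
      split_ifs
      · rw [kap_succ hp hN, Th_succ hp hN (j + 1), div_div,
          div_le_div_iff₀ (by positivity) (by positivity), mul_pow]
        have a1 := rr_le (j + 1)
        have a2 := rr_pos (j + 1)
        have a3 : rr (j + 1) ^ 2 ≤ 1 := by nlinarith
        have a4 : 0 < Th p N (j + 1) ^ 2 * kap p N j := by positivity
        nlinarith
      · positivity
    · have a1 : 2 * N ^ 2 / p / 4 ^ j ≤ 2 * N ^ 2 / p := div_le_self (by positivity) j1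
      calc _ ≤ 4 * (2 * N ^ 2 / p) * Th p N j ^ 2 := by gcongr
        _ = _ := by unfold Th; rw [rr_succ]; field_simp; ring
    · refine (Th_le hp hp1 hN _).trans ?_
      gcongr
      nlinarith
    · cases j with
      | zero => exact (Th_le_one hp hp1 hN 0).trans (by simp [lam])
      | succ j => exact le_rfl
    · have a1 := rr_exp j
      have a2 : Real.exp (4 * 2 ^ j) ≤ Real.exp (kap p N j) := by
        rw [Real.exp_le_exp]; linarith
      have a3 : 1 ≤ Real.exp (kap p N j) * rr j := a1.trans (by gcongr)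
      rw [t2, ← mul_assoc]
      exact le_mul_of_one_le_left t0.le a3
    · have e1 : 2 * N ^ 2 / p / 4 ^ j / 4 = 2 * N ^ 2 / p / 4 ^ (j + 1) := by
        rw [pow_succ (4 : ℝ) j]; field_simp
      have e2 : 4 * (p * 4 ^ j / N ^ 2) = p * 4 ^ (j + 1) / N ^ 2 := by ring
      have e3 : 4 * (2 * 4 ^ j) = 2 * 4 ^ (j + 1) := by ring
      rw [e1, e2, e3]
      exact hs

end params

end Vale.Agent.P321
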