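import Vale.Agent.P321.Acc
import Vale.Agent.P321.Gauss

/-! The trilinear relation between windowed transforms. -/

namespace Vale.Agent.P321

open Finset Complex

/-- Signed distance to the reference position. -/
noncomputable def sh (m t : ℕ) : ℝ := (t : ℝ) - m

/-- One term of the windowed transform. -/
noncomputable def term (m : ℕ) (β : ℝ) (F : List Bool → ℂ) (x : List Bool) (ζ : ℂ) (t : ℕ) : ℂ :=
  cexp (-β * sh m t ^ 2) * cexp (ζ * sh m t) * F (x.drop t)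

/-- The windowed transform. -/
noncomputable def V (m : ℕ) (β : ℝ) (F : List Bool → ℂ) (x : List Bool) (ζ : ℂ) : ℂ :=
  ∑ t ∈ range x.length, term m β F x ζ t

/-- All windowed transforms of the class nearly agree on a vertical segment. -/
def Small (m : ℕ) (β : ℝ) (S : Set ℂ) (k : ℕ) (x y : List Bool) (lam ε : ℝ) : Prop :=
  ∀ F, Cl S k (3 ^ (8 * k)) F → ∀ ζ : ℂ, ζ.re = lam → |ζ.im| ≤ 25 * lam →
    ‖V m β F x ζ - V m β F y ζ‖ ≤ ε

theorem norm_gw_le {β : ℝ} (hβ : 0 ≤ β) (s : ℝ) : ‖cexp (-β * (s : ℂ) ^ 2)‖ ≤ 1 := by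
  rw [Complex.norm_exp]
  have : (-(β : ℂ) * (s : ℂ) ^ 2).re = -β * s ^ 2 := by
    rw [← ofReal_pow, ← ofReal_neg, ← ofReal_mul, ofReal_re]
  rw [this, Real.exp_le_one_iff]
  nlinarith [sq_nonneg s]

theorem V_sub_le {n m : ℕ} {x y : List Bool} (hx : x.length = n) (hy : y.length = n)
    (hm : ∀ t, m < t → x.drop t = y.drop t) {β : ℝ} (hβ : 0 ≤ β) {G : List Bool → ℂ} {N : ℝ}
    (hGx : ∀ t < n, ‖G (x.drop t)‖ ≤ N) (hGy : ∀ t < n, ‖G (y.drop t)‖ ≤ N) {ζ : ℂ}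
    (hζ : 0 ≤ ζ.re) : ‖V m β G x ζ - V m β G y ζ‖ ≤ n * (2 * N) := by
  rw [V, V, hx, hy, ← sum_sub_distrib]
  refine (norm_sum_le _ _).trans ?_
  have : ∀ t ∈ range n, ‖term m β G x ζ t - term m β G y ζ t‖ ≤ 2 * N := by
    intro t ht
    rw [mem_range] at ht
    have hN : 0 ≤ N := le_trans (norm_nonneg _) (hGx t ht)
    by_cases h : m < t
    · simp only [term, hm t h, sub_self, norm_zero]; positivity
    · rw [term, term, ← mul_sub, norm_mul, norm_mul]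
      have h1 := norm_gw_le hβ (sh m t)
      have h2 : ‖cexp (ζ * sh m t)‖ ≤ 1 := by
        rw [Complex.norm_exp, Real.exp_le_one_iff]
        have : sh m t ≤ 0 := by
          have : (t : ℝ) ≤ m := by exact_mod_cast not_lt.mp h
          simp only [sh]; linarith
        simp only [mul_re, ofReal_re, ofReal_im, mul_zero, sub_zero]
        nlinarith
      have h3 : ‖G (x.drop t) - G (y.drop t)‖ ≤ 2 * N :=
        (norm_sub_le _ _).trans (by linarith [hGx t ht, hGy t ht])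
      calc _ ≤ 1 * 1 * (2 * N) := by gcongr
        _ = _ := by ring
  refine (sum_le_sum this).trans ?_
  simp

theorem R_drop (m : ℕ) (x : List Bool) (e : ℕ) (z : ℂ) (F : List Bool → ℂ) {t : ℕ}
    (ht : t < x.length) :
    cexp (z * sh m t) * R e (cexp z) F (x.drop t) =
      ∑ t' ∈ range x.length, if t + e ≤ t' then term m 0 F x z t' else 0 := by
  have e1 : x.length = t + (x.length - t) := by omega
  conv_rhs => rw [e1, sum_range_add]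
  rw [sum_eq_zero (s := range t) (fun u hu => by
    rw [mem_range] at hu; rw [if_neg (by omega)]), zero_add, R, List.length_drop, mul_sum]
  refine sum_congr rfl fun u _ => ?_
  by_cases h : e ≤ u
  · rw [if_pos h, if_pos (by omega), term, List.drop_drop, ← Complex.exp_nat_mul, ← mul_assoc,
      ← Complex.exp_add]
    simp only [ofReal_zero, neg_zero, zero_mul, Complex.exp_zero, one_mul]
    congr 2
    simp only [sh]; push_cast; ring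
  · rw [if_neg h, if_neg (by omega), mul_zero]

theorem R_bound {x : List Bool} {F : List Bool → ℂ} {M : ℝ} (hM : 0 ≤ M)
    (hF : ∀ t < x.length, ‖F (x.drop t)‖ ≤ M) (e : ℕ) {w : ℂ} (hw : ‖w‖ ≤ 1) (t : ℕ) :
    ‖R e w F (x.drop t)‖ ≤ x.length * M := by
  rw [R, List.length_drop]
  refine (norm_sum_le _ _).trans ?_
  have : ∀ u ∈ range (x.length - t),
      ‖if e ≤ u then w ^ u * F ((x.drop t).drop u) else 0‖ ≤ M := by
    intro u hu
    rw [mem_range] at hu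
    split_ifs
    · rw [norm_mul, norm_pow, List.drop_drop]
      have h1 : ‖w‖ ^ u ≤ 1 := pow_le_one₀ (norm_nonneg _) hw
      have h2 := hF (t + u) (by omega)
      calc _ ≤ 1 * M := by gcongr
        _ = M := one_mul _
    · simpa using hM
  refine (sum_le_sum this).trans ?_
  simp only [sum_const, card_range, nsmul_eq_mul]
  gcongr
  omega

/-- Triple sum over configurations whose first index is the smallest. -/
noncomputable def Tr (n e2 e3 : ℕ) (a1 a2 a3 : ℕ → ℂ) : ℂ :=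
  ∑ i ∈ range n ×ˢ range n ×ˢ range n,
    if i.1 + e2 ≤ i.2.1 ∧ i.1 + e3 ≤ i.2.2 then a1 i.1 * a2 i.2.1 * a3 i.2.2 else 0

theorem Tr_eq (n e2 e3 : ℕ) (a1 a2 a3 : ℕ → ℂ) : Tr n e2 e3 a1 a2 a3 =
    ∑ t1 ∈ range n, ∑ t2 ∈ range n, ∑ t3 ∈ range n,
      if t1 + e2 ≤ t2 ∧ t1 + e3 ≤ t3 then a1 t1 * a2 t2 * a3 t3 else 0 := by
  simp only [Tr, sum_product]

theorem Tr_split (n : ℕ) (a1 a2 a3 : ℕ → ℂ) :
    (∑ t ∈ range n, a1 t) * (∑ t ∈ range n, a2 t) * (∑ t ∈ range n, a3 t) =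
      Tr n 0 0 a1 a2 a3 + Tr n 1 0 a2 a1 a3 + Tr n 1 1 a3 a1 a2 := by
  rw [Tr_eq, Tr_eq, Tr_eq n 1 1, sum_comm (s := range n) (t := range n)
    (f := fun t1 t2 => ∑ t3 ∈ range n,
      if t1 + 1 ≤ t2 ∧ t1 + 0 ≤ t3 then a2 t1 * a1 t2 * a3 t3 else 0),
    sum_comm (s := range n) (t := range n) (f := fun t1 t2 => ∑ t3 ∈ range n,
      if t1 + 1 ≤ t2 ∧ t1 + 1 ≤ t3 then a3 t1 * a1 t2 * a2 t3 else 0)]
  rw [sum_mul_sum, sum_mul, ← sum_add_distrib, ← sum_add_distrib]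
  refine sum_congr rfl fun t1 _ => ?_
  rw [sum_comm (s := range n) (t := range n) (f := fun t3 t2 =>
      if t3 + 1 ≤ t1 ∧ t3 + 1 ≤ t2 then a3 t3 * a1 t1 * a2 t2 else 0)]
  rw [sum_mul, ← sum_add_distrib, ← sum_add_distrib]
  refine sum_congr rfl fun t2 _ => ?_
  rw [mul_sum, ← sum_add_distrib, ← sum_add_distrib]
  refine sum_congr rfl fun t3 _ => ?_
  split_ifs <;> first | omega | ring

theorem Tr_V (m : ℕ) (x : List Bool) (β : ℝ) (e2 e3 : ℕ) (F1 F2 F3 : List Bool → ℂ)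
    (z1 z2 z3 : ℂ) :
    Tr x.length e2 e3 (term m β F1 x z1) (term m 0 F2 x z2) (term m 0 F3 x z3) =
      V m β (fun xs => F1 xs * R e2 (cexp z2) F2 xs * R e3 (cexp z3) F3 xs) x (z1 + z2 + z3) := by
  rw [Tr_eq, V]
  refine sum_congr rfl fun t1 ht => ?_
  rw [mem_range] at ht
  have e1 : term m β (fun xs => F1 xs * R e2 (cexp z2) F2 xs * R e3 (cexp z3) F3 xs) x
      (z1 + z2 + z3) t1 = term m β F1 x z1 t1 * ((cexp (z2 * sh m t1) * R e2 (cexp z2) F2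
        (x.drop t1)) * (cexp (z3 * sh m t1) * R e3 (cexp z3) F3 (x.drop t1))) := by
    simp only [term, add_mul, Complex.exp_add]; ring
  rw [e1, R_drop m x e2 z2 F2 ht, R_drop m x e3 z3 F3 ht, sum_mul_sum, mul_sum]
  refine sum_congr rfl fun t2 _ => ?_
  rw [mul_sum]
  refine sum_congr rfl fun t3 _ => ?_
  by_cases h2 : t1 + e2 ≤ t2 <;> by_cases h3 : t1 + e3 ≤ t3 <;> simp [h2, h3]
  ring

theorem one_case {n m : ℕ} {x y : List Bool} (hx : x.length = n) (hy : y.length = n)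
    (hm : ∀ t, m < t → x.drop t = y.drop t) {C α β β' Λ Θ Y ε ℓ : ℝ} {k : ℕ} (hk : 2 ≤ k)
    (hC : 0 ≤ C) (hΛ : 0 < Λ) (hβ : 0 < β) (hβ0 : 0 ≤ β') (hβ' : β' ≤ β / 2)
    (hY : Λ ^ 2 = Y * β) (h1 : 4 * C * Θ ^ 2 ≤ Λ) (h2 : 8 * Λ ≤ Θ) (h3 : Λ ≤ α)
    (hℓ : n * (2 * (3 ^ (8 * k) * (n : ℝ) ^ k)) ≤ Real.exp ℓ)
    (hs : Small m β' (Reg (C / 4) (4 * α)) (4 * k) x y Λ ε)
    {F1 F2 F3 : List Bool → ℂ} (hF1 : Cl (Reg C α) k (3 ^ (8 * k)) F1)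
    (hF2 : Cl (Reg C α) k (3 ^ (8 * k)) F2) (hF3 : Cl (Reg C α) k (3 ^ (8 * k)) F3)
    {e2 e3 : ℕ} (he2 : e2 ≤ 1) (he3 : e3 ≤ 1) {θ1 θ2 θ3 : ℝ} (hθ2 : |θ2| ≤ Θ) (hθ3 : |θ3| ≤ Θ)
    (hθ : |θ1 + θ2 + θ3| ≤ Λ) :
    ‖Tr n e2 e3 (term m β F1 x (θ1 * I)) (term m β F2 x (θ2 * I)) (term m β F3 x (θ3 * I)) -
      Tr n e2 e3 (term m β F1 y (θ1 * I)) (term m β F2 y (θ2 * I)) (term m β F3 y (θ3 * I))‖ ≤
      Real.exp (5 * Y) * (ε + 6 * Real.exp (3 * ℓ) * Real.exp (-(16 * Y))) := by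
  set M : ℝ := 3 ^ (8 * k) * (n : ℝ) ^ k with hM
  have hM0 : 0 ≤ M := by positivity
  have hY0 : 0 < Y := by
    have : 0 < Y * β := by rw [← hY]; positivity
    exact (mul_pos_iff_of_pos_right hβ).mp this
  set c : ℕ × ℕ × ℕ → ℂ := fun i => if i.1 + e2 ≤ i.2.1 ∧ i.1 + e3 ≤ i.2.2 then
    term m β' F1 x (θ1 * I) i.1 * term m 0 F2 x (θ2 * I) i.2.1 * term m 0 F3 x (θ3 * I) i.2.2 -
    term m β' F1 y (θ1 * I) i.1 * term m 0 F2 y (θ2 * I) i.2.1 * term m 0 F3 y (θ3 * I) i.2.2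
    else 0 with hc
  have hb1 : 0 < β - β' := by linarith
  have key : ∀ η1 η2 η3 : ℝ, ∑ i ∈ range n ×ˢ range n ×ˢ range n, c i *
      cexp (((-Λ : ℝ) + η3 * I) * sh m i.2.2) * cexp (((-Λ : ℝ) + η2 * I) * sh m i.2.1) *
      cexp (((3 * Λ : ℝ) + η1 * I) * sh m i.1) =
      V m β' (fun xs => F1 xs * R e2 (cexp (-Λ + (θ2 + η2 : ℝ) * I)) F2 xs *
        R e3 (cexp (-Λ + (θ3 + η3 : ℝ) * I)) F3 xs) x
        ((3 * Λ + (θ1 + η1 : ℝ) * I) + (-Λ + (θ2 + η2 : ℝ) * I) + (-Λ + (θ3 + η3 : ℝ) * I)) -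
      V m β' (fun xs => F1 xs * R e2 (cexp (-Λ + (θ2 + η2 : ℝ) * I)) F2 xs *
        R e3 (cexp (-Λ + (θ3 + η3 : ℝ) * I)) F3 xs) y
        ((3 * Λ + (θ1 + η1 : ℝ) * I) + (-Λ + (θ2 + η2 : ℝ) * I) + (-Λ + (θ3 + η3 : ℝ) * I)) := by
    intro η1 η2 η3
    rw [← Tr_V, ← Tr_V, hx, hy, Tr, Tr, ← sum_sub_distrib]
    refine sum_congr rfl fun i _ => ?_
    simp only [hc]
    split_ifs
    · simp only [term]
      push_cast
      simp only [add_mul, Complex.exp_add]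
      ring
    · simp
  have hnw : ∀ θ : ℝ, ‖cexp (-Λ + θ * I)‖ ≤ 1 := by
    intro θ; rw [Complex.norm_exp]; simp [hΛ.le]
  have hre : ∀ a b d : ℝ, ((3 * Λ + a * I) + (-Λ + b * I) + (-Λ + d * I) : ℂ).re = Λ := by
    intro a b d; simp; ring
  have him : ∀ a b d : ℝ, ((3 * Λ + a * I) + (-Λ + b * I) + (-Λ + d * I) : ℂ).im = a + b + d := by
    intro a b d; simp
  have hδ : ∀ b : ℝ, 0 < b → b ≤ β →
      Real.exp (-((8 * Λ) ^ 2 / (4 * b))) ≤ Real.exp (-(16 * Y)) := by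
    intro b hb hbβ
    rw [Real.exp_le_exp, neg_le_neg_iff, le_div_iff₀ (by positivity), mul_pow, hY]
    nlinarith [mul_le_mul_of_nonneg_left hbβ hY0.le]
  have g := gauss3 (range n ×ˢ range n ×ˢ range n) c (fun i => sh m i.1) (fun i => sh m i.2.1)
    (fun i => sh m i.2.2) hb1 hβ hβ (3 * Λ) (-Λ) (-Λ) (Real.exp (3 * ℓ)) ε (8 * Λ)
    (Real.exp (-(16 * Y))) (by positivity) (hδ _ hb1 (by linarith)) (hδ _ hβ le_rfl)
    (hδ _ hβ le_rfl) ?_ ?_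
  · have hε : 0 ≤ ε := le_trans (norm_nonneg _) (hs (fun _ => 0)
      (fun _ => Acc.zero _ _ (by positivity)) Λ (by simp) (by simp; positivity))
    refine le_trans (le_of_eq ?_) (g.trans ?_)
    · congr 1
      rw [Tr, Tr, ← sum_sub_distrib]
      refine sum_congr rfl fun i _ => ?_
      simp only [hc]
      split_ifs
      · have e : ∀ s : ℝ, cexp (-(β : ℂ) * (s : ℂ) ^ 2) =
            cexp (-(β' : ℂ) * (s : ℂ) ^ 2) * cexp (-((β - β' : ℝ) : ℂ) * (s : ℂ) ^ 2) := by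
          intro s; rw [← Complex.exp_add]; congr 1; push_cast; ring
        simp only [term, ofReal_zero, neg_zero, zero_mul, Complex.exp_zero, one_mul]
        rw [e (sh m i.1)]
        ring
      · simp
    · gcongr
      have a1 : (3 * Λ) ^ 2 / (4 * (β - β')) ≤ 9 / 2 * Y := by
        rw [div_le_iff₀ (by positivity), mul_pow, hY]
        nlinarith [mul_le_mul_of_nonneg_left hβ' hY0.le]
      have a2 : (-Λ) ^ 2 / (4 * β) = Y / 4 := by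
        rw [neg_sq, hY]; field_simp
      rw [a2]; linarith
  · intro η1 η2 η3
    rw [key]
    have bd : ∀ z : List Bool, z.length = n → ∀ t < n,
        ‖F1 (z.drop t) * R e2 (cexp (-Λ + (θ2 + η2 : ℝ) * I)) F2 (z.drop t) *
        R e3 (cexp (-Λ + (θ3 + η3 : ℝ) * I)) F3 (z.drop t)‖ ≤ M * (n * M) * (n * M) := by
      intro z hz t ht
      subst hz
      rw [norm_mul, norm_mul]
      have b1 := hF1.bound Reg.norm_le z ht
      have b2 := R_bound hM0 (fun t ht => hF2.bound Reg.norm_le z ht) e2 (hnw (θ2 + η2)) t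
      have b3 := R_bound hM0 (fun t ht => hF3.bound Reg.norm_le z ht) e3 (hnw (θ3 + η3)) t
      gcongr
    refine (V_sub_le hx hy hm hβ0 (bd x hx) (bd y hy) (by rw [hre]; exact hΛ.le)).trans ?_
    have e3 : Real.exp (3 * ℓ) = Real.exp ℓ ^ 3 := by rw [← Real.exp_nat_mul]; norm_num
    rw [e3]
    have hnM : 0 ≤ n * M := by positivity
    calc (n : ℝ) * (2 * (M * (n * M) * (n * M))) = 2 * (n * M) ^ 3 := by ring
      _ ≤ 8 * (n * M) ^ 3 := by gcongr; norm_num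
      _ = (n * (2 * M)) ^ 3 := by ring
      _ ≤ _ := by gcongr
  · intro η1 η2 η3 a1 a2 a3
    rw [key]
    have hw : ∀ θ η : ℝ, |θ| ≤ Θ → |η| ≤ 8 * Λ → cexp (-Λ + (θ + η : ℝ) * I) ∈ Reg C α := by
      intro θ η b1 b2
      refine ⟨Λ, θ + η, hΛ.le, ?_, h3, rfl⟩
      have b3 : |θ + η| ≤ 2 * Θ := (abs_add_le _ _).trans (by linarith)
      have b4 : (θ + η) ^ 2 ≤ (2 * Θ) ^ 2 := by
        rw [← sq_abs]; gcongr
      nlinarith [mul_le_mul_of_nonneg_left b4 hC]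
    refine hs _ (Cl.triple hC (by linarith) hk hF1 hF2 hF3 (hw _ _ hθ2 a2) (hw _ _ hθ3 a3)
      he2 he3) _ (hre _ _ _) ?_
    rw [him]
    rw [abs_le] at *
    constructor <;> linarith

theorem three_point {n m : ℕ} {x y : List Bool} (hx : x.length = n) (hy : y.length = n)
    (hm : ∀ t, m < t → x.drop t = y.drop t) {C α β β' Λ Θ Y ε ℓ : ℝ} {k : ℕ} (hk : 2 ≤ k)
    (hC : 0 ≤ C) (hΛ : 0 < Λ) (hβ : 0 < β) (hβ0 : 0 ≤ β') (hβ' : β' ≤ β / 2)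
    (hY : Λ ^ 2 = Y * β) (h1 : 4 * C * Θ ^ 2 ≤ Λ) (h2 : 8 * Λ ≤ Θ) (h3 : Λ ≤ α)
    (hℓ : n * (2 * (3 ^ (8 * k) * (n : ℝ) ^ k)) ≤ Real.exp ℓ)
    (hs : Small m β' (Reg (C / 4) (4 * α)) (4 * k) x y Λ ε)
    {F1 F2 F3 : List Bool → ℂ} (hF1 : Cl (Reg C α) k (3 ^ (8 * k)) F1)
    (hF2 : Cl (Reg C α) k (3 ^ (8 * k)) F2) (hF3 : Cl (Reg C α) k (3 ^ (8 * k)) F3)
    {θ1 θ2 θ3 : ℝ} (hθ1 : |θ1| ≤ Θ) (hθ2 : |θ2| ≤ Θ) (hθ3 : |θ3| ≤ Θ)
    (hθ : |θ1 + θ2 + θ3| ≤ Λ) :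
    ‖V m β F1 x (θ1 * I) * V m β F2 x (θ2 * I) * V m β F3 x (θ3 * I) -
      V m β F1 y (θ1 * I) * V m β F2 y (θ2 * I) * V m β F3 y (θ3 * I)‖ ≤
      3 * (Real.exp (5 * Y) * (ε + 6 * Real.exp (3 * ℓ) * Real.exp (-(16 * Y)))) := by
  have c1 := one_case hx hy hm hk hC hΛ hβ hβ0 hβ' hY h1 h2 h3 hℓ hs hF1 hF2 hF3
    (e2 := 0) (e3 := 0) (by omega) (by omega) hθ2 hθ3 hθ
  have c2 := one_case hx hy hm hk hC hΛ hβ hβ0 hβ' hY h1 h2 h3 hℓ hs hF2 hF1 hF3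
    (e2 := 1) (e3 := 0) (by omega) (by omega) hθ1 hθ3 (θ1 := θ2)
    (by rw [add_comm θ2 θ1]; exact hθ)
  have c3 := one_case hx hy hm hk hC hΛ hβ hβ0 hβ' hY h1 h2 h3 hℓ hs hF3 hF1 hF2
    (e2 := 1) (e3 := 1) (by omega) (by omega) hθ1 hθ2 (θ1 := θ3)
    (by rw [show θ3 + θ1 + θ2 = θ1 + θ2 + θ3 by ring]; exact hθ)
  simp only [V, hx, hy]
  rw [Tr_split, Tr_split]
  have e : ∀ a b c a' b' c' : ℂ, a + b + c - (a' + b' + c') = (a - a') + (b - b') + (c - c') := by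
    intros; ring
  rw [e]
  refine norm_add₃_le.trans ?_
  linarith

end Vale.Agent.P321
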