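import Vale.Agent.P321.Main

/-! Separation of trace distributions and the sample bound. -/

namespace Vale.Agent.P321

open Finset Complex

theorem V_zero (m : ℕ) (F : List Bool → ℂ) (x : List Bool) (ζ : ℂ) :
    R 0 (cexp ζ) F x = cexp (ζ * m) * V m 0 F x ζ := by
  rw [R, V, mul_sum]
  refine sum_congr rfl fun t _ => ?_
  simp only [zero_le, if_true, term, ofReal_zero, neg_zero, zero_mul, Complex.exp_zero, one_mul]
  rw [← mul_assoc, ← Complex.exp_add, ← Complex.exp_nat_mul]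
  congr 2
  simp only [sh]; push_cast; ring

theorem mass_bound {n k : ℕ} {N p κ : ℝ} (hN : 2 ≤ N) (hn : (n : ℝ) ≤ Real.exp N)
    (hk : (k : ℝ) ≤ 2 * N ^ 2) (hp : 0 < p) (hp1 : p ≤ 1) (hκ0 : 0 ≤ κ)
    (hκ : κ ^ n ≤ Real.exp 2) :
    3 ^ (8 * k) / p ^ (k + 1) * ((n : ℝ) + 1) ^ (k + 1) * κ ^ n ≤ Real.exp (30 * N ^ 3 / p) := by
  have h2 : (2 : ℝ) ≤ Real.exp 1 := by have := Real.add_one_le_exp 1; linarith
  have h3 := three_le_exp
  have h4 : (n : ℝ) + 1 ≤ Real.exp (N + 1) := by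
    have := Real.one_le_exp (show 0 ≤ N by linarith)
    rw [Real.exp_add]; nlinarith
  have h5 : p⁻¹ ≤ Real.exp p⁻¹ := by have := Real.add_one_le_exp p⁻¹; linarith
  have h6 : 1 ≤ p⁻¹ := (one_le_inv₀ hp).mpr hp1
  rw [div_eq_mul_inv, ← inv_pow]
  calc _ ≤ Real.exp 2 ^ (8 * k) * Real.exp p⁻¹ ^ (k + 1) * Real.exp (N + 1) ^ (k + 1) *
        Real.exp 2 := by gcongr
    _ = Real.exp (16 * k + (k + 1) * p⁻¹ + (k + 1) * (N + 1) + 2) := by
        rw [← Real.exp_nat_mul, ← Real.exp_nat_mul, ← Real.exp_nat_mul, ← Real.exp_add,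
          ← Real.exp_add, ← Real.exp_add]
        congr 1; push_cast; ring
    _ ≤ _ := by
        rw [Real.exp_le_exp, div_eq_mul_inv]
        have a2 : 2 * N ^ 2 ≤ N ^ 3 := by nlinarith
        have a3 : 4 ≤ N ^ 2 := by nlinarith
        have a4 : (k + 1 : ℝ) ≤ 3 * N ^ 2 := by linarith
        have a5 : (k + 1 : ℝ) * (N + 1) ≤ 3 * N ^ 2 * (2 * N) := by gcongr; linarith
        have a6 : (k + 1 : ℝ) * p⁻¹ ≤ 2 * N ^ 3 * p⁻¹ := by gcongr; linarith
        have a7 : 28 * N ^ 3 * 1 ≤ 28 * N ^ 3 * p⁻¹ := by gcongr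
        nlinarith

theorem rr_mul_le {n K : ℕ} (hn : n ≤ 2 ^ 2 ^ K) : rr K * n ≤ 1 := by
  have h1 : (n : ℝ) ≤ 16 ^ 2 ^ K := by
    have : n ≤ 16 ^ 2 ^ K := hn.trans (Nat.pow_le_pow_left (by norm_num) _)
    exact_mod_cast this
  have h2 : rr K * 16 ^ 2 ^ K = 1 := by rw [rr, ← mul_pow]; norm_num
  have := rr_pos K
  calc rr K * n ≤ rr K * 16 ^ 2 ^ K := by gcongr
    _ = 1 := h2

theorem sep {q : ℝ} (h0 : 0 < q) (h1 : q < 1) {n J : ℕ} (hn : n ≤ 2 ^ 2 ^ (J + 1))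
    (x y : Fin n → Bool) (hxy : x ≠ y) :
    ∃ g : List Bool → ℂ, (∀ z s : Fin n → Bool, ‖g (trace z s)‖ ≤ 1) ∧
      Real.exp (-(91 * kap (1 - q) (2 ^ (J + 1)) J)) ≤
        ‖∑ s, (weight q s : ℂ) * g (trace x s) - ∑ s, (weight q s : ℂ) * g (trace y s)‖ := by
  set p := 1 - q with hpq
  set N : ℝ := 2 ^ (J + 1) with hNd
  have hp : 0 < p := by linarith
  have hp1 : p ≤ 1 := by linarith
  have hN : 2 ≤ N := by
    rw [hNd, pow_succ]
    have : (1 : ℝ) ≤ 2 ^ J := one_le_pow₀ (by norm_num)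
    linarith
  have hnN : (n : ℝ) ≤ Real.exp N := by
    have h2 : (2 : ℝ) ≤ Real.exp 1 := by have := Real.add_one_le_exp 1; linarith
    have e : Real.exp N = Real.exp 1 ^ 2 ^ (J + 1) := by
      rw [← Real.exp_nat_mul, hNd]; push_cast; rw [mul_one]
    have : (n : ℝ) ≤ 2 ^ 2 ^ (J + 1) := by exact_mod_cast hn
    rw [e]
    exact this.trans (by gcongr)
  have hne : (univ.filter fun i => x i ≠ y i).Nonempty := by
    obtain ⟨i, hi⟩ := Function.ne_iff.mp hxy
    exact ⟨i, by simpa using hi⟩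
  set m := (univ.filter fun i => x i ≠ y i).max' hne with hmd
  have hm1 : x m ≠ y m := by simpa using max'_mem _ hne
  have hm2 : ∀ t, (m : ℕ) < t → (List.ofFn x).drop t = (List.ofFn y).drop t := by
    intro t ht
    refine List.ext_getElem (by simp) fun i a1 a2 => ?_
    simp only [List.getElem_drop, List.getElem_ofFn]
    by_contra hc
    have := le_max' (univ.filter fun i => x i ≠ y i) _ (by simpa using hc)
    rw [← hmd, Fin.le_def] at this
    simp only at this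
    omega
  have lv := levels hp hp1 hN (K := J + 1) (List.length_ofFn (f := x)) (List.length_ofFn (f := y))
    m.2 hm2 (by simpa using hm1) hNd hnN (J + 1) le_rfl
  have e4 : (4 : ℝ) ^ (J + 1) = N ^ 2 := by rw [hNd, ← pow_mul, mul_comm, pow_mul]; norm_num
  have e1 : 2 * N ^ 2 / p / 4 ^ (J + 1) = 2 / p := by rw [e4]; field_simp
  have e2 : p * 4 ^ (J + 1) / N ^ 2 = p := by rw [e4]; field_simp
  have e3 : bet p N (J + 1) (J + 1) = 0 := if_neg (lt_irrefl _)
  rw [e1, e2, e3, lam, LL, Small] at lv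
  push Not at lv
  obtain ⟨F, hF, ζ, hre, him, hbig⟩ := lv
  set l := Th p N (J + 1) with hl
  have l0 : 0 < l := Th_pos hp hN _
  have r0 := rr_pos (J + 1)
  have r1 := rr_le (J + 1)
  have N2 : 4 ≤ N ^ 2 := by nlinarith
  have l1 : l ≤ rr (J + 1) * p / 32 := by
    rw [hl, Th]; gcongr; linarith
  have hζ : ‖ζ‖ ≤ 26 * l := by
    refine (Complex.norm_le_abs_re_add_abs_im ζ).trans ?_
    rw [hre, abs_of_pos l0]; linarith
  have hζ1 : ‖ζ‖ ≤ 1 := by nlinarith
  set κ := 1 + 2 * rr (J + 1) with hκ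
  have hA : Acc (insert (cexp ζ) (Reg (2 / p) p)) (2 * 4 ^ (J + 1) + 1)
      (3 ^ (8 * (2 * 4 ^ (J + 1)))) (R 0 (cexp ζ) F) :=
    Cl.accR (fun c => (hF c).mono_set (Set.subset_insert _ _)) (Set.mem_insert _ _)
  obtain ⟨g, g1, g2⟩ := hA.estimator (p := p) (κ := κ) hp hp1 (by linarith) (by
    rintro w (rfl | hw)
    · have a1 := Complex.norm_exp_sub_one_le hζ1
      have e : cexp ζ - (1 - p) = (cexp ζ - 1) + p := by ring
      rw [e]
      refine (norm_add_le _ _).trans ?_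
      rw [Complex.norm_real, Real.norm_eq_abs, abs_of_pos hp, hκ]
      nlinarith [mul_pos r0 hp]
    · refine (Reg.disc hp hp1 w hw).trans ?_
      nlinarith [mul_pos r0 hp])
  have hκn : κ ^ n ≤ Real.exp 2 := by
    have a1 : κ ≤ Real.exp (2 * rr (J + 1)) := by
      have := Real.add_one_le_exp (2 * rr (J + 1)); linarith
    have a2 := rr_mul_le hn
    calc κ ^ n ≤ Real.exp (2 * rr (J + 1)) ^ n := by gcongr
      _ = Real.exp (n * (2 * rr (J + 1))) := (Real.exp_nat_mul _ _).symm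
      _ ≤ _ := by rw [Real.exp_le_exp]; linarith
  have hk : kap p N J ≥ 30 * N ^ 3 / p := by
    unfold kap
    have a1 : (1 : ℝ) ≤ 2 ^ (20 * J) := one_le_pow₀ (by norm_num)
    have a2 : N ^ 3 ≤ N ^ 5 := pow_le_pow_right₀ (by linarith) (by norm_num)
    have a3 : 0 < N ^ 3 := by positivity
    calc 30 * N ^ 3 / p ≤ 2 ^ 26 * N ^ 5 / p := by gcongr; norm_num
      _ = 1 * (2 ^ 26 * N ^ 5 / p) := (one_mul _).symm
      _ ≤ _ := by gcongr
  have gb : ∀ z s : Fin n → Bool, ‖g (trace z s)‖ ≤ Real.exp (kap p N J) := by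
    intro z s
    refine (g2 _).trans (le_trans ?_ ((mass_bound hN hnN (k := 2 * 4 ^ (J + 1))
      (by push_cast; rw [e4]) hp hp1 (by linarith) hκn).trans (Real.exp_le_exp.mpr hk)))
    have a1 := trace_length z s
    gcongr
    linarith
  refine ⟨fun t => (Real.exp (-kap p N J) : ℝ) * g t, fun z s => ?_, ?_⟩
  · rw [norm_mul, Complex.norm_real, Real.norm_eq_abs, abs_of_pos (Real.exp_pos _)]
    calc _ ≤ Real.exp (-kap p N J) * Real.exp (kap p N J) := by gcongr; exact gb z s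
      _ = 1 := by rw [← Real.exp_add]; simp
  · rw [← Ex_eq q x (fun t => (Real.exp (-kap p N J) : ℝ) * g t),
      ← Ex_eq q y (fun t => (Real.exp (-kap p N J) : ℝ) * g t), Ex_smul, Ex_smul, g1, g1,
      V_zero m, V_zero m, ← mul_sub, ← mul_sub, norm_mul, norm_mul, Complex.norm_real,
      Real.norm_eq_abs, abs_of_pos (Real.exp_pos _)]
    have a1 : 1 ≤ ‖cexp (ζ * (m : ℕ))‖ := by
      rw [Complex.norm_exp]
      apply Real.one_le_exp
      simp only [mul_re, natCast_re, natCast_im, mul_zero, sub_zero, hre]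
      positivity
    calc _ = Real.exp (-kap p N J) * (1 * Real.exp (-(90 * kap p N J))) := by
          rw [one_mul, ← Real.exp_add]; congr 1; ring
      _ ≤ _ := by gcongr

theorem sample {q : ℝ} (h0 : 0 < q) (h1 : q < 1) {n J : ℕ} (hn : n ≤ 2 ^ 2 ^ (J + 1)) :
    ∃ m : ℕ, (m : ℝ) ≤ Real.exp (183 * kap (1 - q) (2 ^ (J + 1)) J) ∧
      ∃ est : (Fin m → List Bool) → (Fin n → Bool), ∀ x, 2 / 3 ≤ success q est x := by
  set κ := kap (1 - q) (2 ^ (J + 1)) J with hκ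
  have hN : (2 : ℝ) ≤ 2 ^ (J + 1) := by
    rw [pow_succ]
    have : (1 : ℝ) ≤ 2 ^ J := one_le_pow₀ (by norm_num)
    linarith
  have hk := kap_ge (p := 1 - q) (by linarith) (by linarith) hN J
  rw [← hκ] at hk
  have h2 : (2 : ℝ) ≤ Real.exp 1 := by have := Real.add_one_le_exp 1; linarith
  have hnN : (n : ℝ) ≤ Real.exp (2 ^ (J + 1)) := by
    have e : Real.exp (2 ^ (J + 1)) = Real.exp 1 ^ 2 ^ (J + 1) := by
      rw [← Real.exp_nat_mul]; push_cast; rw [mul_one]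
    have : (n : ℝ) ≤ 2 ^ 2 ^ (J + 1) := by exact_mod_cast hn
    rw [e]
    exact this.trans (by gcongr)
  set N : ℝ := 2 ^ (J + 1) with hNd
  have n5 : N ≤ N ^ 5 := le_self_pow₀ (by linarith) (by norm_num)
  set E := Real.exp (182 * κ) with hE
  have E1 : 1 ≤ E := Real.one_le_exp (by linarith)
  refine ⟨⌈8 * (n + 2) * E⌉₊, ?_, ?_⟩
  · have a1 := Nat.ceil_lt_add_one (show 0 ≤ 8 * ((n : ℝ) + 2) * E by positivity)
    have a2 : Real.exp (183 * κ) = Real.exp (κ - N) * Real.exp N * E := by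
      rw [hE, ← Real.exp_add, ← Real.exp_add]; congr 1; ring
    have a3 := Real.add_one_le_exp (κ - N)
    have a4 := Real.add_one_le_exp N
    have a5 : 8 * ((n : ℝ) + 2) + 1 ≤ Real.exp (κ - N) * Real.exp N := by
      have : 100 * Real.exp N ≤ Real.exp (κ - N) * Real.exp N := by gcongr; linarith
      linarith
    have a6 : (8 * ((n : ℝ) + 2) + 1) * E ≤ Real.exp (κ - N) * Real.exp N * E := by gcongr
    rw [a2]; nlinarith
  · obtain ⟨est, hest⟩ := ml (weight q) (weight_pos h0 h1) (weight_sum q n) trace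
      (Real.exp_pos _) (sep h0 h1 hn) ⌈8 * (n + 2) * E⌉₊
    refine ⟨est, fun x => le_trans ?_ (hest x)⟩
    rw [← hNd, ← hκ]
    have a1 : 8 * ((n : ℝ) + 2) * E ≤ ⌈8 * ((n : ℝ) + 2) * E⌉₊ := Nat.le_ceil _
    have a2 : E * Real.exp (-(91 * κ)) ^ 2 = 1 := by
      rw [hE, ← Real.exp_nat_mul, ← Real.exp_add, Real.exp_eq_one_iff]; push_cast; ring
    have a3 : (n : ℝ) + 2 ≤ ⌈8 * ((n : ℝ) + 2) * E⌉₊ * (Real.exp (-(91 * κ)) ^ 2 / 8) := by
      calc (n : ℝ) + 2 = 8 * (n + 2) * E * (Real.exp (-(91 * κ)) ^ 2 / 8) := by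
            linear_combination (-(n : ℝ) - 2) * a2
        _ ≤ _ := by gcongr
    have a4 : (Fintype.card (Fin n → Bool) : ℝ) ≤ Real.exp n := by
      have : Real.exp n = Real.exp 1 ^ n := by rw [← Real.exp_nat_mul, mul_one]
      rw [this]
      simp only [Fintype.card_pi, Fintype.card_bool, prod_const, card_univ, Fintype.card_fin,
        Nat.cast_pow, Nat.cast_ofNat]
      gcongr
    have a5 : Real.exp n * Real.exp (-(n + 2)) ≤ 1 / 3 := by
      rw [← Real.exp_add, show (n : ℝ) + -(n + 2) = -2 by ring, Real.exp_neg, ← one_div]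
      gcongr
      exact three_le_exp
    have a6 : (Fintype.card (Fin n → Bool) : ℝ) *
        Real.exp (-(⌈8 * ((n : ℝ) + 2) * E⌉₊ * (Real.exp (-(91 * κ)) ^ 2 / 8))) ≤
        Real.exp n * Real.exp (-(n + 2)) := by gcongr
    linarith

theorem quasi {q : ℝ} (h0 : 0 < q) (h1 : q < 1) {n : ℕ} (hn : 2 ≤ n) :
    ∃ m : ℕ, (m : ℝ) ≤ Real.exp (10 ^ 16 * Real.log n ^ 25 / (1 - q)) ∧
      ∃ est : (Fin m → List Bool) → (Fin n → Bool), ∀ x, 2 / 3 ≤ success q est x := by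
  set a := Nat.log 2 n with ha
  set J := Nat.log 2 a with hJ
  have a1 : n < 2 ^ (a + 1) := Nat.lt_pow_succ_log_self (by norm_num) n
  have a2 : a < 2 ^ (J + 1) := Nat.lt_pow_succ_log_self (by norm_num) a
  have a3 : 2 ^ a ≤ n := Nat.pow_log_le_self 2 (by omega)
  have a4 : a ≠ 0 := by
    intro h; rw [h] at a1; omega
  have a5 : 2 ^ J ≤ a := Nat.pow_log_le_self 2 a4
  obtain ⟨m, hm, h⟩ := sample h0 h1 (n := n) (J := J)
    (a1.le.trans (Nat.pow_le_pow_right (by norm_num) a2))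
  refine ⟨m, hm.trans ?_, h⟩
  rw [Real.exp_le_exp]
  have e : 183 * kap (1 - q) (2 ^ (J + 1)) J = 11712 * (2 ^ (J + 1)) ^ 25 / (1 - q) := by
    unfold kap; ring
  have b1 : (a : ℝ) * Real.log 2 ≤ Real.log n := by
    rw [← Real.log_pow]
    exact Real.log_le_log (by positivity) (by exact_mod_cast a3)
  have b2 := Real.log_two_gt_d9
  have b3 : (2 : ℝ) ^ J ≤ a := by exact_mod_cast a5
  have b4 : (2 : ℝ) ^ (J + 1) ≤ 3 * Real.log n := by
    have : (0 : ℝ) ≤ a := by positivity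
    rw [pow_succ]; nlinarith
  have b5 : 0 < 1 - q := by linarith
  have b6 : 0 ≤ Real.log n := Real.log_natCast_nonneg n
  rw [e]
  calc _ ≤ 11712 * (3 * Real.log n) ^ 25 / (1 - q) := by gcongr
    _ = 11712 * 3 ^ 25 * Real.log n ^ 25 / (1 - q) := by ring
    _ ≤ _ := by gcongr; norm_num

end Vale.Agent.P321
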