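import Vale.Agent.P321.One
import Vale.Agent.P321.Exc
import Vale.Agent.P321.Add

/-! The zoom-out step between consecutive scales. -/

namespace Vale.Agent.P321

open Finset Complex

theorem V_diff (m : ℕ) (β : ℝ) (F : List Bool → ℂ) (x : List Bool) :
    Differentiable ℂ (V m β F x) := by
  have : V m β F x = fun ζ => ∑ t ∈ range x.length,
      cexp (-β * sh m t ^ 2) * cexp (ζ * sh m t) * F (x.drop t) := rfl
  rw [this]
  fun_prop

theorem norm_exp_I (a s : ℝ) : ‖cexp (a * I * s)‖ = 1 := by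
  rw [Complex.norm_exp]; simp

theorem V_le {m : ℕ} {β : ℝ} (hβ : 0 ≤ β) {F : List Bool → ℂ} {x : List Bool} {M : ℝ}
    (hF : ∀ t < x.length, ‖F (x.drop t)‖ ≤ M) (a : ℝ) : ‖V m β F x (a * I)‖ ≤ x.length * M := by
  refine (norm_sum_le _ _).trans ?_
  have : ∀ t ∈ range x.length, ‖term m β F x (a * I) t‖ ≤ M := by
    intro t ht
    rw [term, norm_mul, norm_mul, norm_exp_I]
    have h1 := norm_gw_le hβ (sh m t)
    have h2 := hF t (mem_range.mp ht)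
    calc _ ≤ 1 * 1 * M := by gcongr
      _ = M := by ring
  refine (sum_le_sum this).trans ?_
  simp

theorem V_lip {m : ℕ} {β : ℝ} (hβ : 0 ≤ β) {F : List Bool → ℂ} {x : List Bool} {M : ℝ}
    (hm : m < x.length) (hF : ∀ t < x.length, ‖F (x.drop t)‖ ≤ M) (a b : ℝ) :
    ‖V m β F x (a * I) - V m β F x (b * I)‖ ≤ x.length * (x.length * M * |a - b|) := by
  rw [V, V, ← sum_sub_distrib]
  refine (norm_sum_le _ _).trans ?_
  have : ∀ t ∈ range x.length, ‖term m β F x (a * I) t - term m β F x (b * I) t‖ ≤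
      x.length * M * |a - b| := by
    intro t ht
    rw [mem_range] at ht
    have e : term m β F x (a * I) t - term m β F x (b * I) t = cexp (-β * sh m t ^ 2) *
        (cexp (b * I * sh m t) * (cexp (I * ((a - b) * sh m t : ℝ)) - 1)) * F (x.drop t) := by
      rw [mul_sub, ← Complex.exp_add, term, term]
      have : b * I * sh m t + I * ((a - b) * sh m t : ℝ) = a * I * sh m t := by push_cast; ring
      rw [this]; ring
    rw [e, norm_mul, norm_mul, norm_mul, norm_exp_I]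
    have h1 := norm_gw_le hβ (sh m t)
    have h2 := hF t ht
    have h3 : ‖cexp (I * ((a - b) * sh m t : ℝ)) - 1‖ ≤ |a - b| * x.length := by
      refine Real.norm_exp_I_mul_ofReal_sub_one_le.trans ?_
      rw [Real.norm_eq_abs, abs_mul]
      gcongr
      have a1 : (t : ℝ) ≤ x.length := by exact_mod_cast ht.le
      have a2 : (m : ℝ) ≤ x.length := by exact_mod_cast hm.le
      have a3 : (0 : ℝ) ≤ t := by positivity
      have a4 : (0 : ℝ) ≤ m := by positivity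
      rw [sh, abs_le]; constructor <;> linarith
    calc _ ≤ 1 * (1 * (|a - b| * x.length)) * M := by gcongr
      _ = _ := by ring
  refine (sum_le_sum this).trans ?_
  simp

theorem V_conj (m : ℕ) (β : ℝ) (F : List Bool → ℂ) (x : List Bool) (a : ℝ) :
    V m β (fun xs => (starRingEnd ℂ) (F xs)) x ((-a : ℝ) * I) =
      (starRingEnd ℂ) (V m β F x (a * I)) := by
  rw [V, V, map_sum]
  refine sum_congr rfl fun t _ => ?_
  simp only [term, map_mul, ← Complex.exp_conj, map_neg, map_pow, Complex.conj_ofReal,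
    Complex.conj_I]
  push_cast
  congr 3
  ring

theorem V_one (m : ℕ) (β : ℝ) (x : List Bool) :
    V m β (fun _ => 1) x ((0 : ℝ) * I) =
      ((∑ t ∈ range x.length, Real.exp (-β * sh m t ^ 2) : ℝ) : ℂ) := by
  rw [V]
  push_cast
  refine sum_congr rfl fun t _ => ?_
  simp [term]

theorem Cl.conj {C α k μ F} (h : Cl (Reg C α) k μ F) :
    Cl (Reg C α) k μ (fun xs => (starRingEnd ℂ) (F xs)) := fun c => (h c).conj Reg.conj

theorem Cl.of_head {C α : ℝ} (hα : 0 ≤ α) {k : ℕ} (hk : 1 ≤ k) {F : List Bool → ℂ}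
    (a : Bool → ℂ) (ha : ∀ c, ‖a c‖ ≤ 1) (hF : ∀ c xs, F (c :: xs) = a c) :
    Cl (Reg C α) k (3 ^ (8 * k)) F := fun c =>
  (((Acc.const (Reg.one hα) (a c) (ha c)).mono_depth hk).mono_mass
    (one_le_pow₀ (by norm_num))).of_eq (hF c)

theorem num1 {X κ h Θ K : ℝ} (hκ : 4 ≤ κ) (hXκ : κ + 1 ≤ X) (hh : h = Θ / (3 * K))
    (h5 : Θ ≤ 1) (hK1 : X ^ 12 ≤ K) :
    X ^ 8 * (1 / (2 * X ^ 8) + X ^ 2 * (8 * κ * h)) ≤ 1 := by
  have hX0 : 0 < X := by linarith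
  have a1 : h ≤ 1 / (3 * X ^ 12) := by
    rw [hh]; gcongr
  have a2 : X ^ 8 * (X ^ 2 * (8 * κ * h)) ≤ X ^ 8 * (X ^ 2 * (8 * κ * (1 / (3 * X ^ 12)))) := by
    gcongr
  have a3 : X ^ 8 * (X ^ 2 * (8 * κ * (1 / (3 * X ^ 12)))) = 8 * κ / (3 * X ^ 2) := by
    field_simp
  have a4 : 8 * κ / (3 * X ^ 2) ≤ 1 / 2 := by
    rw [div_le_iff₀ (by positivity)]; nlinarith
  have a5 : X ^ 8 * (1 / (2 * X ^ 8)) = 1 / 2 := by field_simp
  rw [mul_add]; linarith

theorem num2 {κ h Θ lam L ℓ b : ℝ} {c K : ℕ} (hκ : 0 < κ) (hΘ : 0 < Θ) (hlam : 0 < lam)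
    (hK0 : (0 : ℝ) < K) (hh : h = Θ / (3 * K)) (hc : Real.exp (-L) < b)
    (h7 : 6120 * lam * (L + ℓ + 1) ≤ κ * Θ)
    (hexc : Real.exp (κ * (c * (h / (680 * lam)))) * b ≤ Real.exp (ℓ + 1)) : 3 * c < K := by
  have a1 : Real.exp (κ * (c * (h / (680 * lam)))) * Real.exp (-L) <
      Real.exp (ℓ + 1) := lt_of_lt_of_le (by gcongr) hexc
  rw [← Real.exp_add, Real.exp_lt_exp] at a1
  have a2 : κ * (c * (h / (680 * lam))) = κ * Θ * c / (2040 * K * lam) := by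
    rw [hh]; field_simp; ring
  have a3 : κ * Θ * c < (L + ℓ + 1) * (2040 * K * lam) := by
    rw [← div_lt_iff₀ (by positivity), ← a2]; linarith
  have a4 : K * (6120 * lam * (L + ℓ + 1)) ≤ K * (κ * Θ) := by gcongr
  have a5 : κ * Θ * (3 * c) < κ * Θ * K := by nlinarith
  have a6 : (3 * c : ℝ) < K := lt_of_mul_lt_mul_left a5 (by positivity)
  exact_mod_cast a6

theorem num3 {κ ℓ : ℝ} (hℓκ : ℓ ≤ κ) (hκ : 0 ≤ κ) :
    3 * (Real.exp (5 * (6 * κ)) * (Real.exp (-(90 * κ)) + 6 * Real.exp (3 * ℓ) *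
      Real.exp (-(16 * (6 * κ))))) ≤ 21 / Real.exp κ ^ 60 := by
  have a1 : Real.exp (3 * ℓ) * Real.exp (-(16 * (6 * κ))) ≤ Real.exp (-(90 * κ)) := by
    rw [← Real.exp_add, Real.exp_le_exp]; linarith
  have a2 : Real.exp (5 * (6 * κ)) * Real.exp (-(90 * κ)) = 1 / Real.exp κ ^ 60 := by
    rw [← Real.exp_add, ← Real.exp_nat_mul, one_div, ← Real.exp_neg]; congr 1; push_cast; ring
  have a3 : Real.exp (5 * (6 * κ)) * (Real.exp (-(90 * κ)) + 6 * Real.exp (3 * ℓ) *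
    Real.exp (-(16 * (6 * κ)))) ≤ Real.exp (5 * (6 * κ)) * (7 * Real.exp (-(90 * κ))) := by
    gcongr; linarith
  have a4 : (21 : ℝ) / Real.exp κ ^ 60 = 21 * (1 / Real.exp κ ^ 60) := by ring
  rw [a4, ← a2]; linarith

theorem num4 {X K : ℝ} (hX5 : 5 ≤ X) (hK2 : K < X ^ 12 + 1) :
    108 * X * (2 * K + 1) * (21 / X ^ 60) < (1 / (2 * X ^ 8)) ^ 4 := by
  have hX0 : 0 < X := by linarith
  have a1 : (1 : ℝ) ≤ X ^ 12 := one_le_pow₀ (by linarith)
  have a2 : 108 * X * (2 * K + 1) * (21 / X ^ 60) ≤ 108 * X * (5 * X ^ 12) * (21 / X ^ 60) := by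
    gcongr; linarith
  have a3 : 108 * X * (5 * X ^ 12) * (21 / X ^ 60) = 11340 / X ^ 47 := by field_simp; ring
  have a4 : (1 / (2 * X ^ 8)) ^ 4 = X ^ 15 / 16 / X ^ 47 := by field_simp; ring
  have a5 : (5 : ℝ) ^ 15 ≤ X ^ 15 := by gcongr
  rw [a4]
  refine lt_of_le_of_lt (a2.trans a3.le) ?_
  gcongr
  linarith

theorem B_lip {n m : ℕ} {x y : List Bool} (hx : x.length = n) (hy : y.length = n) (hmn : m < n)
    {β M X : ℝ} (hβ : 0 ≤ β) {F : List Bool → ℂ} (hM1 : 1 ≤ M)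
    (bx : ∀ t < x.length, ‖F (x.drop t)‖ ≤ M) (by' : ∀ t < y.length, ‖F (y.drop t)‖ ≤ M)
    (a3 : (n : ℝ) * (2 * M) ≤ X) (a b : ℝ) :
    ‖(V m β F x (a * I) - V m β F y (a * I)) - (V m β F x (b * I) - V m β F y (b * I))‖ ≤
      X ^ 2 * |a - b| := by
  have a1 := V_lip hβ (hx ▸ hmn : m < x.length) bx a b
  have a2 := V_lip hβ (hy ▸ hmn : m < y.length) by' a b
  rw [hx] at a1
  rw [hy] at a2
  have e : (V m β F x (a * I) - V m β F y (a * I)) - (V m β F x (b * I) - V m β F y (b * I)) =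
      (V m β F x (a * I) - V m β F x (b * I)) - (V m β F y (a * I) - V m β F y (b * I)) := by ring
  rw [e]
  refine (norm_sub_le _ _).trans ?_
  have hn0 : (0 : ℝ) ≤ n := by positivity
  have a4 : (n : ℝ) ≤ X := by nlinarith
  have a5 : (n : ℝ) * (n * (2 * M)) * |a - b| ≤ X * X * |a - b| := by
    gcongr; linarith
  nlinarith

theorem zoomB {n m : ℕ} {x y : List Bool} (hx : x.length = n) (hy : y.length = n) (hmn : m < n)
    {C α β Λ Θ h X M : ℝ} {k K : ℕ} (hk : 2 ≤ k) (hα : 0 ≤ α) (hβ : 0 ≤ β) (hΛ : 0 < Λ)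
    (hΘ : 0 < Θ) (hh0 : 0 < h) (hhΛ : h ≤ Λ) (hkh' : ∀ j < 3 * K, |(j : ℝ) * h| ≤ Θ)
    (hX5 : 5 ≤ X) (hK2 : (K : ℝ) < X ^ 12 + 1) {F : List Bool → ℂ}
    (hF : Cl (Reg C α) k (3 ^ (8 * k)) F) (hM : 0 ≤ M) (a3 : (n : ℝ) * (2 * M) ≤ X)
    (bx : ∀ t < x.length, ‖F (x.drop t)‖ ≤ M)
    (tp : ∀ {F1 F2 F3 : List Bool → ℂ}, Cl (Reg C α) k (3 ^ (8 * k)) F1 →
      Cl (Reg C α) k (3 ^ (8 * k)) F2 → Cl (Reg C α) k (3 ^ (8 * k)) F3 →
      ∀ {θ1 θ2 θ3 : ℝ}, |θ1| ≤ Θ → |θ2| ≤ Θ → |θ3| ≤ Θ → |θ1 + θ2 + θ3| ≤ Λ →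
      ‖V m β F1 x (θ1 * I) * V m β F2 x (θ2 * I) * V m β F3 x (θ3 * I) -
        V m β F1 y (θ1 * I) * V m β F2 y (θ2 * I) * V m β F3 y (θ3 * I)‖ ≤ 21 / X ^ 60)
    (Bad : Finset ℕ) (hcard : 3 * Bad.card < K)
    (hBad : ∀ j < 3 * K, j ∉ Bad → 1 / (2 * X ^ 8) ≤
      ‖V m β F x ((j * h : ℝ) * I) - V m β F y ((j * h : ℝ) * I)‖) : False := by
  have hX0 : 0 < X := by linarith
  refine add_contra (fun j => V m β F x ((j * h : ℝ) * I)) (fun j => V m β F y ((j * h : ℝ) * I))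
    Bad K hcard (ε := 21 / X ^ 60) (τ := 1 / (2 * X ^ 8)) (E := X) (by positivity) (by positivity)
    ?_ (by linarith) ?_ hBad ?_ ?_ (num4 hX5 hK2)
  · rw [div_le_one (by positivity)]
    have : 1 ≤ X ^ 8 := one_le_pow₀ (by linarith)
    linarith
  · intro j
    have a1 := V_le (m := m) hβ bx (j * h)
    rw [hx] at a1
    have : 0 ≤ (n : ℝ) * M := by positivity
    linarith
  · intro j hj
    have c1 : Cl (Reg C α) k (3 ^ (8 * k)) (fun _ => 1) :=
      Cl.of_head hα (by omega) (fun _ => 1) (by simp) (fun _ _ => rfl)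
    have a1 := tp hF hF.conj c1 (θ1 := j * h) (θ2 := -(j * h)) (θ3 := 0) (hkh' j hj)
      (by rw [abs_neg]; exact hkh' j hj) (by simpa using hΘ.le) (by simpa using hΛ.le)
    rw [V_conj, V_conj, V_one, V_one, hx, hy, Complex.mul_conj, Complex.mul_conj, ← sub_mul,
      norm_mul, Complex.normSq_eq_norm_sq, Complex.normSq_eq_norm_sq, ← ofReal_sub,
      Complex.norm_real, Complex.norm_real, Real.norm_eq_abs, Real.norm_eq_abs] at a1
    have a2 : 1 ≤ ∑ t ∈ range n, Real.exp (-β * sh m t ^ 2) := by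
      have := single_le_sum (f := fun t => Real.exp (-β * sh m t ^ 2)) (s := range n)
        (fun t _ => (Real.exp_pos _).le) (mem_range.mpr hmn)
      simpa [sh] using this
    refine le_trans ?_ a1
    refine le_mul_of_one_le_right (abs_nonneg _) (a2.trans (le_abs_self _))
  · intro j l e he hj
    have a1 := tp hF hF hF.conj (θ1 := j * h) (θ2 := l * h) (θ3 := -((j + l + e : ℕ) * h))
      (hkh' j (by omega)) (hkh' l (by omega)) (by rw [abs_neg]; exact hkh' _ hj) (by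
        have e1 : j * h + l * h + -((j + l + e : ℕ) * h) = -(e * h) := by push_cast; ring
        have e2 : (e : ℝ) ≤ 1 := by exact_mod_cast he
        rw [e1, abs_neg, abs_of_nonneg (by positivity)]
        nlinarith)
    rw [V_conj, V_conj] at a1
    exact a1

theorem zoom {n m : ℕ} {x y : List Bool} (hx : x.length = n) (hy : y.length = n) (hmn : m < n)
    (hm : ∀ t, m < t → x.drop t = y.drop t) {C α β β' Λ Θ κ ℓ lam L : ℝ} {k : ℕ} (hk : 2 ≤ k)
    (hC : 0 ≤ C) (hΛ : 0 < Λ) (hβ : 0 < β) (hβ0 : 0 ≤ β') (hβ' : β' ≤ β / 2)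
    (hY : Λ ^ 2 = 6 * κ * β) (h1 : 4 * C * Θ ^ 2 ≤ Λ) (h2 : 8 * Λ ≤ Θ) (h3 : Λ ≤ α)
    (hℓ : n * (2 * (3 ^ (8 * k) * (n : ℝ) ^ k)) ≤ Real.exp ℓ) (hℓ0 : 0 ≤ ℓ) (hℓκ : ℓ ≤ κ)
    (hκ : 4 ≤ κ) (h4 : Θ ≤ lam) (h5 : Θ ≤ 1) (h6 : Θ ≤ Real.exp κ * Λ)
    (h7 : 6120 * lam * (L + ℓ + 1) ≤ κ * Θ)
    (hs : Small m β' (Reg (C / 4) (4 * α)) (4 * k) x y Λ (Real.exp (-(90 * κ)))) :
    Small m β (Reg C α) k x y lam (Real.exp (-L)) := by
  classical
  intro F hF ζ hre him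
  by_contra hc
  push Not at hc
  set M : ℝ := 3 ^ (8 * k) * (n : ℝ) ^ k with hM
  have hn1 : (1 : ℝ) ≤ n := by exact_mod_cast (show 1 ≤ n by omega)
  have hM1 : 1 ≤ M := one_le_mul_of_one_le_of_one_le (one_le_pow₀ (by norm_num)) (one_le_pow₀ hn1)
  have bx : ∀ t < x.length, ‖F (x.drop t)‖ ≤ M := fun t ht => by
    have := hF.bound Reg.norm_le x ht; rwa [hx] at this
  have by' : ∀ t < y.length, ‖F (y.drop t)‖ ≤ M := fun t ht => by
    have := hF.bound Reg.norm_le y ht; rwa [hy] at this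
  set X := Real.exp κ with hX
  have hX5 : 5 ≤ X := by have := Real.add_one_le_exp κ; linarith
  have hXκ : κ + 1 ≤ X := Real.add_one_le_exp κ
  have hX0 : 0 < X := by linarith
  have pw : ∀ j : ℕ, Real.exp (j * κ) = X ^ j := fun j => Real.exp_nat_mul κ j
  have hℓX : Real.exp ℓ ≤ X := Real.exp_le_exp.mpr hℓκ
  set K := ⌈X ^ 12⌉₊ with hK
  have hK1 : X ^ 12 ≤ K := Nat.le_ceil _
  have hK2 : (K : ℝ) < X ^ 12 + 1 := Nat.ceil_lt_add_one (by positivity)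
  have hX12 : X ≤ X ^ 12 := le_self_pow₀ (by linarith) (by norm_num)
  have hK0 : (0 : ℝ) < K := by linarith
  have hΘ : 0 < Θ := by linarith
  have hlam : 0 < lam := by linarith
  set h := Θ / (3 * K) with hh
  have hh0 : 0 < h := by positivity
  have hhΛ : h ≤ Λ := by
    rw [hh, div_le_iff₀ (by positivity)]
    have : X * Λ ≤ K * Λ := by gcongr; linarith
    nlinarith
  have hkh : ∀ j < 3 * K, (j : ℝ) * h ≤ Θ := by
    intro j hj
    have : (j : ℝ) ≤ 3 * K := by exact_mod_cast hj.le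
    calc (j : ℝ) * h ≤ 3 * K * h := by gcongr
      _ = Θ := by rw [hh]; field_simp
  have hkh' : ∀ j < 3 * K, |(j : ℝ) * h| ≤ Θ := fun j hj => by
    rw [abs_of_nonneg (by positivity)]; exact hkh j hj
  set τ := 1 / (2 * X ^ 8) with hτ
  have hτ0 : 0 < τ := by positivity
  set B : ℂ → ℂ := fun z => V m β F x z - V m β F y z with hB
  set Bad := (range (3 * K)).filter fun j : ℕ => ‖B ((j * h : ℝ) * I)‖ ≤ τ with hBad
  have hexc := exc (B := B) ((V_diff m β F x).sub (V_diff m β F y)) (ℓ := ℓ) (D := X ^ 2)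
    (h := h) (τ := τ) (κ := κ) (N := 8 * κ) (lam := lam) hh0 (by linarith) (by linarith)
    (by positivity) hℓ0
    (fun z hz => (V_sub_le hx hy hm hβ.le (hx ▸ bx) (hy ▸ by') hz).trans hℓ)
    (B_lip hx hy hmn hβ.le hM1 bx by' (hℓ.trans hℓX))
    Bad (fun j hj => (mem_filter.mp hj).2) (by linarith) (by
      have e8 := pw 8
      push_cast at e8
      rw [e8]
      exact num1 hκ hXκ hh h5 hK1) (by linarith)
    (fun j hj => (hkh j (mem_range.mp (mem_filter.mp hj).1)).trans h4) hre him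
  have hcard : 3 * Bad.card < K := num2 (by linarith) hΘ hlam hK0 hh hc h7 hexc
  have hα : 0 ≤ α := by linarith
  have hε := num3 hℓκ (by linarith)
  refine zoomB hx hy hmn hk hα hβ.le hΛ hΘ hh0 hhΛ hkh' hX5 hK2 hF (by linarith) (hℓ.trans hℓX) bx
    (fun hF1 hF2 hF3 _ _ _ hθ1 hθ2 hθ3 hθ => (three_point hx hy hm hk hC hΛ hβ hβ0 hβ' hY h1 h2 h3
      hℓ hs hF1 hF2 hF3 hθ1 hθ2 hθ3 hθ).trans hε) Bad hcard ?_
  intro j hj hb
  simp only [hBad, mem_filter, mem_range, hj, true_and, not_le] at hb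
  exact hb.le

end Vale.Agent.P321
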